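import Vale.Agent.P050.T.OneRow

/-! P050 module KL. -/

namespace Vale.Agent.P050.T

open Finset

/-- Marginals of log-supermodular functions are log-supermodular: `four_functions_theorem_univ`
on the lattice `Finset (Fin k)`. -/
theorem lsm_marginal {k n : ℕ} {g : (Fin (n + 1) → Finset (Fin k)) → ℝ} (hg : LSM g) :
    LSM fun x : Fin n → Finset (Fin k) => ∑ S : Finset (Fin k), g (Fin.cons S x) := by
  refine ⟨fun x => Finset.sum_nonneg fun S _ => hg.1 _, fun x y => ?_⟩
  have h := four_functions_theorem_univ (fun S : Finset (Fin k) => g (Fin.cons S x))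
    (fun S => g (Fin.cons S y)) (fun S => g (Fin.cons S (x ⊓ y)))
    (fun S => g (Fin.cons S (x ⊔ y))) (fun S => hg.1 _) (fun S => hg.1 _) (fun S => hg.1 _)
    (fun S => hg.1 _) (fun S T => ?_)
  · exact h
  · have h2 := hg.2 (Fin.cons S x) (Fin.cons T y)
    have e1 : (Fin.cons S x : Fin (n + 1) → Finset (Fin k)) ⊓ Fin.cons T y
        = Fin.cons (S ⊓ T) (x ⊓ y) := by
      funext i
      refine Fin.cases ?_ (fun j => ?_) i <;> simp
    have e2 : (Fin.cons S x : Fin (n + 1) → Finset (Fin k)) ⊔ Fin.cons T y
        = Fin.cons (S ⊔ T) (x ⊔ y) := by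
      funext i
      refine Fin.cases ?_ (fun j => ?_) i <;> simp
    rw [e1, e2] at h2
    exact h2

/-- Induction on `n`, summing out the first row with `one_row`
(`G S = g (Fin.cons S x)`, `a j t = f (Fin.cons t (fun b => decide (j < (x b).card)))`) and
`lsm_marginal`; the new `f` is `fun y => f (Fin.cons false y) + f (Fin.cons true y)`. -/
theorem klift {k n : ℕ} {g : (Fin n → Finset (Fin k)) → ℝ} (hg : LSM g)
    {f : (Fin n → Bool) → ℝ} (hf : ∀ y, 0 ≤ f y)
    (h : ∀ x, g x ≤ ∏ j : Fin k, f (fun b => decide ((j : ℕ) < (x b).card))) :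
    ∑ x, g x ≤ (∑ y, f y) ^ k := by
  induction n with
  | zero =>
    rw [Fintype.sum_unique, Fintype.sum_unique]
    refine (h _).trans (le_of_eq ?_)
    rw [Finset.prod_congr rfl fun j _ => congrArg f (Subsingleton.elim _ (default : Fin 0 → Bool)),
      Finset.prod_const, Finset.card_univ, Fintype.card_fin]
    exact congrArg (fun y => f y ^ k) (Subsingleton.elim _ _)
  | succ n ih =>
    have hg' := lsm_marginal hg
    have hf' : ∀ y : Fin n → Bool, 0 ≤ f (Fin.cons false y) + f (Fin.cons true y) :=
      fun y => add_nonneg (hf _) (hf _)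
    have key := ih hg' hf' (fun x => by
      have hG : LSM fun S : Finset (Fin k) => g (Fin.cons S x) := by
        refine ⟨fun S => hg.1 _, fun S T => ?_⟩
        have h1 := hg.2 (Fin.cons S x) (Fin.cons T x)
        have e1 : (Fin.cons S x : Fin (n + 1) → Finset (Fin k)) ⊓ Fin.cons T x
            = Fin.cons (S ⊓ T) x := by
          funext b
          refine Fin.cases ?_ (fun b => ?_) b
          · simp
          · simp
        have e2 : (Fin.cons S x : Fin (n + 1) → Finset (Fin k)) ⊔ Fin.cons T x
            = Fin.cons (S ⊔ T) x := by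
          funext b
          refine Fin.cases ?_ (fun b => ?_) b
          · simp
          · simp
        rw [e1, e2] at h1
        exact h1
      have h2 := one_row hG
        (fun j t => f (Fin.cons t (fun b => decide ((j : ℕ) < (x b).card))))
        (fun j t => hf _) (fun S => by
          refine (h (Fin.cons S x)).trans (le_of_eq ?_)
          refine Finset.prod_congr rfl fun j _ => ?_
          congr 1
          funext b
          refine Fin.cases ?_ (fun b => ?_) b
          · simp
          · simp)
      exact h2)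
    have e1 : ∑ x, g x = ∑ x : Fin n → Finset (Fin k), ∑ S : Finset (Fin k), g (Fin.cons S x) := by
      rw [← (Fin.consEquiv (fun _ : Fin (n + 1) => Finset (Fin k))).sum_comp g,
        Fintype.sum_prod_type, Finset.sum_comm]
      rfl
    have e2 : ∑ y, f y = ∑ y : Fin n → Bool, (f (Fin.cons false y) + f (Fin.cons true y)) := by
      rw [← (Fin.consEquiv (fun _ : Fin (n + 1) => Bool)).sum_comp f,
        Fintype.sum_prod_type, Finset.sum_comm]
      refine Finset.sum_congr rfl fun y _ => ?_
      rw [Fintype.sum_bool, add_comm]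
      rfl
    rw [e1, e2]
    exact key

/-- Transport of `klift` along `Fintype.equivFin E`. -/
theorem klift' {k : ℕ} {E : Type*} [Fintype E] [DecidableEq E]
    {g : (E → Finset (Fin k)) → ℝ} (hg : LSM g) {f : (E → Bool) → ℝ} (hf : ∀ y, 0 ≤ f y)
    (h : ∀ x, g x ≤ ∏ j : Fin k, f (fun b => decide ((j : ℕ) < (x b).card))) :
    ∑ x, g x ≤ (∑ y, f y) ^ k := by
  let e := Fintype.equivFin E
  have h1 := klift (n := Fintype.card E) (g := fun x => g (fun a => x (e a)))
    ⟨fun x => hg.1 _, fun x y => hg.2 _ _⟩ (f := fun y => f (fun a => y (e a)))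
    (fun y => hf _) (fun x => h _)
  have e1 : ∑ x : Fin (Fintype.card E) → Finset (Fin k), g (fun a => x (e a)) = ∑ x, g x :=
    (e.arrowCongr (Equiv.refl (Finset (Fin k)))).symm.sum_comp g
  have e2 : ∑ y : Fin (Fintype.card E) → Bool, f (fun a => y (e a)) = ∑ y, f y :=
    (e.arrowCongr (Equiv.refl Bool)).symm.sum_comp f
  rw [e1, e2] at h1
  exact h1

end Vale.Agent.P050.T
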