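import Vale.Agent.P050.T.Types

/-! P050 module AVG: a good lift exists. -/

namespace Vale.Agent.P050.T

open Finset

variable {N M k : ℕ} {A B E : Type*} [Fintype A] [DecidableEq A] [Fintype B] [DecidableEq B]
  [Fintype E] [DecidableEq E]

private theorem avg_pow_le {n c : ℝ} {a e : ℕ} (hc : 0 < c) (hcn : c ≤ n) (hae : a ≤ e) :
    n ^ a * (1 / n) ^ e ≤ c ^ a * (1 / c) ^ e := by
  have hn : 0 < n := lt_of_lt_of_le hc hcn
  obtain ⟨d, rfl⟩ := Nat.exists_eq_add_of_le hae
  have h1 : ∀ x : ℝ, 0 < x → x ^ a * (1 / x) ^ (a + d) = (1 / x) ^ d := by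
    intro x hx
    rw [pow_add, ← mul_assoc, ← mul_pow, mul_one_div_cancel hx.ne', one_pow, one_mul]
  rw [h1 n hn, h1 c hc]
  exact pow_le_pow_left₀ (by positivity) (one_div_le_one_div_of_le hc hcn) d

/-- Let `m`, `n` be as in `exists_types`, `S` the double sum there, `X_m`, `Y_n` the sets of words.
If `S = 0` the claim is trivial (`card E > 0` or everything is a product over the empty set; treat
`card E = 0` separately: then `A` and `B` are empty).  Otherwise `X_m`, `Y_n` are nonempty.
Restrict all words of `A` to `X_m` and all words of `B` to `Y_n`; the sum over all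
`σ : E → Perm (Fin k)` of the restricted sums is
`card X_m ^ card A * card Y_n ^ card B * (k! * S / (card X_m * card Y_n)) ^ card E` by `sum_perm`
(exchange sum over `σ` and product over `E`: `Finset.prod_univ_sum`), so for some `σ` the sum is at
least `card X_m ^ card A * card Y_n ^ card B * (S / (card X_m * card Y_n)) ^ card E`.  As
`card A ≤ card E`, `card B ≤ card E` (surjectivity), `card X_m ≤ N ^ k`, `card Y_n ≤ M ^ k`, this is
at least `N ^ (k * card A) * M ^ (k * card B) * (S / (N ^ k * M ^ k)) ^ card E`. -/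
theorem exists_lift {W : Fin N → Fin M → ℝ} (hW : ∀ x y, 0 ≤ W x y) (hN : 0 < N) (hM : 0 < M)
    (α : E → A) (β : E → B) (hα : Function.Surjective α) (hβ : Function.Surjective β) :
    ∃ σ : E → Equiv.Perm (Fin k),
      (N : ℝ) ^ (k * Fintype.card A) * (M : ℝ) ^ (k * Fintype.card B) *
        (((∑ x, ∑ y, W x y) / ((N : ℝ) * M)) ^ k / ((k : ℝ) + 1) ^ (N + M)) ^ Fintype.card E ≤
      ∑ x : A → Fin k → Fin N, ∑ y : B → Fin k → Fin M,
        ∏ e, ∏ i, W (x (α e) i) (y (β e) (σ e i)) := by
  classical
  obtain ⟨m, n, hS⟩ := exists_types (k := k) hW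
  set X := univ.filter (fun x : Fin k → Fin N => cnt x = m) with hX
  set Y := univ.filter (fun y : Fin k → Fin M => cnt y = n) with hY
  set S : ℝ := ∑ x ∈ X, ∑ y ∈ Y, ∏ i, W (x i) (y i) with hSdef
  have hS0 : 0 ≤ S := Finset.sum_nonneg fun x _ => Finset.sum_nonneg fun y _ =>
    Finset.prod_nonneg fun i _ => hW _ _
  have hT0 : 0 ≤ ∑ x, ∑ y, W x y := Finset.sum_nonneg fun x _ => Finset.sum_nonneg fun y _ => hW _ _
  have hNR : (0 : ℝ) < N := by exact_mod_cast hN
  have hMR : (0 : ℝ) < M := by exact_mod_cast hM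
  have hNk : (0 : ℝ) < (N : ℝ) ^ k := by positivity
  have hMk : (0 : ℝ) < (M : ℝ) ^ k := by positivity
  set L : ℝ := ((∑ x, ∑ y, W x y) / ((N : ℝ) * M)) ^ k / ((k : ℝ) + 1) ^ (N + M) with hL
  have hL0 : 0 ≤ L := by positivity
  have hLle : L ≤ S * (1 / (N : ℝ) ^ k) * (1 / (M : ℝ) ^ k) := by
    have e1 : L = ((∑ x, ∑ y, W x y) ^ k / ((k : ℝ) + 1) ^ (N + M)) *
        (1 / (N : ℝ) ^ k) * (1 / (M : ℝ) ^ k) := by
      rw [hL, div_pow, mul_pow]
      field_simp
    rw [e1]
    exact mul_le_mul_of_nonneg_right (mul_le_mul_of_nonneg_right hS (by positivity))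
      (by positivity)
  have hterm : ∀ (σ : E → Equiv.Perm (Fin k)) (x : A → Fin k → Fin N) (y : B → Fin k → Fin M),
      0 ≤ ∏ e, ∏ i, W (x (α e) i) (y (β e) (σ e i)) := fun σ x y =>
    Finset.prod_nonneg fun e _ => Finset.prod_nonneg fun i _ => hW _ _
  rcases isEmpty_or_nonempty E with hE | hE
  · have hA : IsEmpty A := ⟨fun a => (hα a).elim fun e _ => hE.false e⟩
    have hB : IsEmpty B := ⟨fun b => (hβ b).elim fun e _ => hE.false e⟩
    refine ⟨fun _ => 1, ?_⟩
    simp
  · have hEpos : 0 < Fintype.card E := Fintype.card_pos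
    rcases hS0.eq_or_lt with hSz | hSpos
    · refine ⟨fun _ => 1, ?_⟩
      have hLz : L = 0 := by
        refine le_antisymm ?_ hL0
        rw [← hSz] at hLle
        simpa using hLle
      rw [hLz, zero_pow hEpos.ne', mul_zero]
      exact Finset.sum_nonneg fun x _ => Finset.sum_nonneg fun y _ => hterm _ x y
    · -- the main case
      have hXne : X.Nonempty := by
        by_contra h
        rw [Finset.not_nonempty_iff_eq_empty] at h
        rw [hSdef, h, Finset.sum_empty] at hSpos
        exact lt_irrefl _ hSpos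
      have hYne : Y.Nonempty := by
        by_contra h
        rw [Finset.not_nonempty_iff_eq_empty] at h
        rw [hSdef, h] at hSpos
        simp at hSpos
      have hcX : (0 : ℝ) < X.card := by exact_mod_cast hXne.card_pos
      have hcY : (0 : ℝ) < Y.card := by exact_mod_cast hYne.card_pos
      have hcXN : (X.card : ℝ) ≤ (N : ℝ) ^ k := by
        have h1 : X.card ≤ N ^ k := by
          refine (Finset.card_le_univ X).trans (le_of_eq ?_)
          simp
        exact_mod_cast h1
      have hcYM : (Y.card : ℝ) ≤ (M : ℝ) ^ k := by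
        have h1 : Y.card ≤ M ^ k := by
          refine (Finset.card_le_univ Y).trans (le_of_eq ?_)
          simp
        exact_mod_cast h1
      have haE : Fintype.card A ≤ Fintype.card E := Fintype.card_le_of_surjective α hα
      have hbE : Fintype.card B ≤ Fintype.card E := Fintype.card_le_of_surjective β hβ
      have hfac : (0 : ℝ) < (k.factorial : ℝ) := by exact_mod_cast Nat.factorial_pos k
      -- inner sums
      have hinner : ∀ x₀ ∈ X, ∀ y₀ ∈ Y,
          ∑ σ : Equiv.Perm (Fin k), ∏ i, W (x₀ i) (y₀ (σ i))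
            = (k.factorial : ℝ) * (S * (1 / X.card) * (1 / Y.card)) := by
        intro x₀ hx₀ y₀ hy₀
        have h1 := sum_perm W x₀ y₀
        rw [hX, Finset.mem_filter] at hx₀
        rw [hY, Finset.mem_filter] at hy₀
        rw [hx₀.2, hy₀.2, ← hX, ← hY, ← hSdef] at h1
        field_simp
        linarith
      -- average over `σ`
      set PX := Fintype.piFinset (fun _ : A => X) with hPX
      set PY := Fintype.piFinset (fun _ : B => Y) with hPY
      set V : ℝ := (X.card : ℝ) ^ Fintype.card A * (Y.card : ℝ) ^ Fintype.card B *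
        (S * (1 / X.card) * (1 / Y.card)) ^ Fintype.card E with hV
      have htot : ∑ σ : E → Equiv.Perm (Fin k), ∑ x ∈ PX, ∑ y ∈ PY,
          ∏ e, ∏ i, W (x (α e) i) (y (β e) (σ e i))
          = ∑ σ : E → Equiv.Perm (Fin k), V := by
        rw [Finset.sum_comm]
        have h1 : ∀ x ∈ PX, ∑ σ : E → Equiv.Perm (Fin k), ∑ y ∈ PY,
            ∏ e, ∏ i, W (x (α e) i) (y (β e) (σ e i))
            = ∑ y ∈ PY, ((k.factorial : ℝ) * (S * (1 / X.card) * (1 / Y.card))) ^
              Fintype.card E := by
          intro x hx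
          rw [Finset.sum_comm]
          refine Finset.sum_congr rfl fun y hy => ?_
          have h2 := Finset.prod_univ_sum (fun _ : E => (univ : Finset (Equiv.Perm (Fin k))))
            (fun e τ => ∏ i, W (x (α e) i) (y (β e) (τ i)))
          rw [Fintype.piFinset_univ] at h2
          rw [← h2]
          have h3 : ∀ e : E, ∑ τ : Equiv.Perm (Fin k), ∏ i, W (x (α e) i) (y (β e) (τ i))
              = (k.factorial : ℝ) * (S * (1 / X.card) * (1 / Y.card)) := fun e =>
            hinner _ (Fintype.mem_piFinset.mp hx (α e)) _ (Fintype.mem_piFinset.mp hy (β e))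
          rw [Finset.prod_congr rfl fun e _ => h3 e, Finset.prod_const, Finset.card_univ]
        rw [Finset.sum_congr rfl h1, Finset.sum_const, Finset.sum_const, Finset.sum_const,
          hPX, hPY, Fintype.card_piFinset, Fintype.card_piFinset, Finset.prod_const,
          Finset.prod_const, Finset.card_univ, Finset.card_univ, Finset.card_univ,
          Fintype.card_fun, Fintype.card_perm, Fintype.card_fin, hV]
        simp only [nsmul_eq_mul, Nat.cast_pow]
        rw [mul_pow]
        ring
      obtain ⟨σ, -, hσ⟩ := Finset.exists_le_of_sum_le (s := univ)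
        (f := fun _ : E → Equiv.Perm (Fin k) => V)
        (g := fun σ => ∑ x ∈ PX, ∑ y ∈ PY, ∏ e, ∏ i, W (x (α e) i) (y (β e) (σ e i)))
        ⟨fun _ => 1, Finset.mem_univ _⟩ (le_of_eq htot.symm)
      refine ⟨σ, ?_⟩
      have hrestr : ∑ x ∈ PX, ∑ y ∈ PY, ∏ e, ∏ i, W (x (α e) i) (y (β e) (σ e i))
          ≤ ∑ x : A → Fin k → Fin N, ∑ y : B → Fin k → Fin M,
            ∏ e, ∏ i, W (x (α e) i) (y (β e) (σ e i)) := by
        refine (Finset.sum_le_sum fun x _ => Finset.sum_le_sum_of_subset_of_nonneg
          (Finset.subset_univ PY) fun y _ _ => hterm σ x y).trans ?_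
        exact Finset.sum_le_sum_of_subset_of_nonneg (Finset.subset_univ PX) fun x _ _ =>
          Finset.sum_nonneg fun y _ => hterm σ x y
      refine le_trans ?_ (hσ.trans hrestr)
      have b1 := avg_pow_le hcX hcXN haE
      have b2 := avg_pow_le hcY hcYM hbE
      calc (N : ℝ) ^ (k * Fintype.card A) * (M : ℝ) ^ (k * Fintype.card B) * L ^ Fintype.card E
          ≤ (N : ℝ) ^ (k * Fintype.card A) * (M : ℝ) ^ (k * Fintype.card B) *
            (S * (1 / (N : ℝ) ^ k) * (1 / (M : ℝ) ^ k)) ^ Fintype.card E :=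
              mul_le_mul_of_nonneg_left (pow_le_pow_left₀ hL0 hLle _) (by positivity)
        _ = S ^ Fintype.card E * ((((N : ℝ) ^ k) ^ Fintype.card A *
              (1 / (N : ℝ) ^ k) ^ Fintype.card E) * (((M : ℝ) ^ k) ^ Fintype.card B *
              (1 / (M : ℝ) ^ k) ^ Fintype.card E)) := by
              rw [pow_mul, pow_mul, mul_pow, mul_pow]; ring
        _ ≤ S ^ Fintype.card E * (((X.card : ℝ) ^ Fintype.card A *
              (1 / (X.card : ℝ)) ^ Fintype.card E) * ((Y.card : ℝ) ^ Fintype.card B *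
              (1 / (Y.card : ℝ)) ^ Fintype.card E)) := by
              refine mul_le_mul_of_nonneg_left ?_ (by positivity)
              exact mul_le_mul b1 b2 (by positivity) (by positivity)
        _ = V := by
              rw [hV, mul_pow, mul_pow]; ring

end Vale.Agent.P050.T
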