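import Vale.Agent.P050.T.Lift
import Vale.Agent.P050.T.Average

/-! P050 module LIM: Sidorenko's inequality for TP2 kernels, no isolated vertices. -/

namespace Vale.Agent.P050.T

open Finset

/-- If `R ≥ 0` and `(k + 1) ^ (-c) ≤ R ^ k` for all `k ≥ 1` then `R ≥ 1`. -/
theorem one_le_of_pow {R : ℝ} (hR : 0 ≤ R) (c : ℕ)
    (h : ∀ k : ℕ, 1 ≤ k → 1 / ((k : ℝ) + 1) ^ c ≤ R ^ k) : 1 ≤ R := by
  by_contra hcon
  push Not at hcon
  have h1 : Filter.Tendsto (fun n : ℕ => (n : ℝ) ^ c * R ^ n) Filter.atTop (nhds 0) :=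
    tendsto_pow_const_mul_const_pow_of_abs_lt_one c (by rwa [abs_of_nonneg hR])
  have h2 : ∀ᶠ n : ℕ in Filter.atTop, (n : ℝ) ^ c * R ^ n < 1 / 2 ^ c :=
    h1.eventually (gt_mem_nhds (by positivity))
  obtain ⟨n, hn, hn1⟩ := (h2.and (Filter.eventually_ge_atTop 1)).exists
  have h3 := h n hn1
  have hn' : (1 : ℝ) ≤ n := by exact_mod_cast hn1
  rw [div_le_iff₀ (by positivity)] at h3
  have h4 : ((n : ℝ) + 1) ^ c ≤ 2 ^ c * (n : ℝ) ^ c := by
    rw [← mul_pow]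
    exact pow_le_pow_left₀ (by positivity) (by linarith) c
  have h5 : R ^ n * ((n : ℝ) + 1) ^ c ≤ R ^ n * (2 ^ c * (n : ℝ) ^ c) :=
    mul_le_mul_of_nonneg_left h4 (pow_nonneg hR n)
  rw [lt_div_iff₀ (by positivity)] at hn
  have h6 : R ^ n * (2 ^ c * (n : ℝ) ^ c) = (n : ℝ) ^ c * R ^ n * 2 ^ c := by ring
  rw [h6] at h5
  linarith

variable {N M : ℕ} {A B E : Type*} [Fintype A] [DecidableEq A] [Fintype B] [DecidableEq B]
  [Fintype E] [DecidableEq E]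

/-- `lift_ineq` and `exists_lift` for all `k ≥ 1`, then `one_le_of_pow` for
`R = T / (N ^ card A * M ^ card B * p ^ card E)`, `c = (N + M) * card E` (if `p = 0`, `T ≥ 0` and
`card E > 0`, or `E` is empty, the claim is trivial). -/
theorem tp2_sidorenko {W : Fin N → Fin M → ℝ} (hW : TP2 W) (hN : 0 < N) (hM : 0 < M)
    (α : E → A) (β : E → B) (hα : Function.Surjective α) (hβ : Function.Surjective β) :
    (N : ℝ) ^ Fintype.card A * (M : ℝ) ^ Fintype.card B *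
        ((∑ x, ∑ y, W x y) / ((N : ℝ) * M)) ^ Fintype.card E ≤
      ∑ x : A → Fin N, ∑ y : B → Fin M, ∏ e, W (x (α e)) (y (β e)) := by
  have hp : 0 ≤ (∑ x, ∑ y, W x y) / ((N : ℝ) * M) :=
    div_nonneg (Finset.sum_nonneg fun x _ => Finset.sum_nonneg fun y _ => hW.1 x y) (by positivity)
  have hT : 0 ≤ ∑ x : A → Fin N, ∑ y : B → Fin M, ∏ e, W (x (α e)) (y (β e)) :=
    Finset.sum_nonneg fun x _ => Finset.sum_nonneg fun y _ => Finset.prod_nonneg fun e _ => hW.1 _ _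
  have hD : 0 ≤ (N : ℝ) ^ Fintype.card A * (M : ℝ) ^ Fintype.card B *
      ((∑ x, ∑ y, W x y) / ((N : ℝ) * M)) ^ Fintype.card E := by positivity
  rcases hD.eq_or_lt with h0 | h0
  · rw [← h0]
    exact hT
  refine (one_le_div h0).mp (one_le_of_pow (div_nonneg hT hD) ((N + M) * Fintype.card E) ?_)
  intro k _
  obtain ⟨σ, hσ⟩ := exists_lift (k := k) hW.1 hN hM α β hα hβ
  have h1 := hσ.trans (lift_ineq hW α β hα hβ σ)
  rw [div_pow, le_div_iff₀ (pow_pos h0 k)]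
  refine le_trans (le_of_eq ?_) h1
  have e1 : ((((∑ x, ∑ y, W x y) / ((N : ℝ) * M)) ^ k / ((k : ℝ) + 1) ^ (N + M)) ^
      Fintype.card E) = ((∑ x, ∑ y, W x y) / ((N : ℝ) * M)) ^ (k * Fintype.card E) /
      ((k : ℝ) + 1) ^ ((N + M) * Fintype.card E) := by
    rw [div_pow (((∑ x, ∑ y, W x y) / ((N : ℝ) * M)) ^ k), ← pow_mul, ← pow_mul]
  rw [e1, mul_pow, mul_pow, ← pow_mul, ← pow_mul, ← pow_mul, mul_comm (Fintype.card A),
    mul_comm (Fintype.card B), mul_comm (Fintype.card E) k]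
  ring

end Vale.Agent.P050.T
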