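import Vale.Agent.P050.T.Defs

/-! P050 module BITS. -/

namespace Vale.Agent.P050.T

open Finset

theorem code_injective {N : ℕ} : Function.Injective (code (N := N)) := by
  intro x y h
  rcases lt_trichotomy x y with hxy | hxy | hxy
  · have := congrFun h x
    simp [code, hxy] at this
  · exact hxy
  · have := congrFun h y
    simp [code, hxy] at this

theorem code_inf {N : ℕ} (x y : Fin N) : code x ⊓ code y = code (x ⊓ y) := by
  funext t
  simp only [Pi.inf_apply, code]
  by_cases h1 : t < x <;> by_cases h2 : t < y <;> simp [h1, h2]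

theorem code_sup {N : ℕ} (x y : Fin N) : code x ⊔ code y = code (x ⊔ y) := by
  funext t
  simp only [Pi.sup_apply, code]
  by_cases h1 : t < x <;> by_cases h2 : t < y <;> simp [h1, h2]

theorem Wt_code {N M : ℕ} (W : Fin N → Fin M → ℝ) (x : Fin N) (y : Fin M) :
    Wt W (code x) (code y) = W x y := by
  unfold Wt
  rw [Finset.sum_eq_single x, Finset.sum_eq_single y]
  · simp
  · intro b _ hb
    rw [if_neg]
    rintro ⟨_, h⟩
    exact hb (code_injective h).symm
  · intro h; exact absurd (Finset.mem_univ _) h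
  · intro b _ hb
    refine Finset.sum_eq_zero fun c _ => ?_
    rw [if_neg]
    rintro ⟨h, _⟩
    exact hb (code_injective h).symm
  · intro h; exact absurd (Finset.mem_univ _) h

theorem Wt_eq_zero {N M : ℕ} (W : Fin N → Fin M → ℝ) {p : Fin N → Bool} {r : Fin M → Bool}
    (h : ¬ ((∃ x, p = code x) ∧ ∃ y, r = code y)) : Wt W p r = 0 := by
  unfold Wt
  refine Finset.sum_eq_zero fun x _ => Finset.sum_eq_zero fun y _ => ?_
  rw [if_neg]
  rintro ⟨h1, h2⟩
  exact h ⟨⟨x, h1⟩, ⟨y, h2⟩⟩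

/-- If both pairs are codes use `TP2` (the case `x ≤ x'`, `y' ≤ y` and symmetric; equality
otherwise), else the left side is zero. -/
theorem lsm_Wt {N M : ℕ} {W : Fin N → Fin M → ℝ} (hW : TP2 W) :
    LSM fun p : (Fin N → Bool) × (Fin M → Bool) => Wt W p.1 p.2 := by
  have h0 : ∀ p : (Fin N → Bool) × (Fin M → Bool), 0 ≤ Wt W p.1 p.2 := by
    intro p
    unfold Wt
    refine Finset.sum_nonneg fun x _ => Finset.sum_nonneg fun y _ => ?_
    split
    · exact hW.1 x y
    · exact le_rfl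
  refine ⟨h0, ?_⟩
  rintro ⟨p1, p2⟩ ⟨q1, q2⟩
  by_cases hp : (∃ x, p1 = code x) ∧ ∃ y, p2 = code y
  · by_cases hq : (∃ x, q1 = code x) ∧ ∃ y, q2 = code y
    · obtain ⟨⟨x, rfl⟩, y, rfl⟩ := hp
      obtain ⟨⟨x', rfl⟩, y', rfl⟩ := hq
      show Wt W (code x) (code y) * Wt W (code x') (code y') ≤
        Wt W (code x ⊓ code x') (code y ⊓ code y') * Wt W (code x ⊔ code x') (code y ⊔ code y')
      rw [code_inf, code_inf, code_sup, code_sup, Wt_code, Wt_code, Wt_code, Wt_code]
      rcases le_total x x' with hx | hx <;> rcases le_total y y' with hy | hy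
      · rw [inf_eq_left.2 hx, sup_eq_right.2 hx, inf_eq_left.2 hy, sup_eq_right.2 hy]
      · rw [inf_eq_left.2 hx, sup_eq_right.2 hx, inf_eq_right.2 hy, sup_eq_left.2 hy]
        exact hW.2 x x' y' y hx hy
      · rw [inf_eq_right.2 hx, sup_eq_left.2 hx, inf_eq_left.2 hy, sup_eq_right.2 hy, mul_comm]
        exact hW.2 x' x y y' hx hy
      · rw [inf_eq_right.2 hx, sup_eq_left.2 hx, inf_eq_right.2 hy, sup_eq_left.2 hy, mul_comm]
    · show Wt W p1 p2 * Wt W q1 q2 ≤ _
      rw [Wt_eq_zero W hq, mul_zero]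
      exact mul_nonneg (h0 _) (h0 _)
  · show Wt W p1 p2 * Wt W q1 q2 ≤ _
    rw [Wt_eq_zero W hp, zero_mul]
    exact mul_nonneg (h0 _) (h0 _)

end Vale.Agent.P050.T
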