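import Mathlib

/-!
# P050: Sidorenko's inequality for log-supermodular kernels; definitions

Plan (notes in `Vale/Agent/P050/NOTES_helper50.md`, Theorem A): uncrossing, weak log-majorization,
the `k`-lift inequality, and averaging over all lifts.
-/

namespace Vale.Agent.P050.T

open Finset

/-- Nonnegative and log-supermodular. -/
def LSM {α : Type*} [Lattice α] (f : α → ℝ) : Prop :=
  (∀ x, 0 ≤ f x) ∧ ∀ x y, f x * f y ≤ f (x ⊓ y) * f (x ⊔ y)

/-- The set of the elements that lie in more than `j` of the sets `s l`. -/
def ost {ι : Type*} [Fintype ι] [DecidableEq ι] {L : ℕ} (s : Fin L → Finset ι) (j : ℕ) :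
    Finset ι :=
  univ.filter fun i => j < (univ.filter fun l => i ∈ s l).card

/-- Boolean version of `ost`. -/
def ostB {ι : Type*} {L : ℕ} (s : Fin L → ι → Bool) (j : ℕ) : ι → Bool :=
  fun t => decide (j < (univ.filter fun l => s l t = true).card)

/-- Totally positive of order two: nonnegative entries and nonnegative `2 × 2` minors. -/
def TP2 {N M : ℕ} (W : Fin N → Fin M → ℝ) : Prop :=
  (∀ x y, 0 ≤ W x y) ∧
    ∀ x x' y y', x ≤ x' → y ≤ y' → W x y' * W x' y ≤ W x y * W x' y'

/-- The element `x` of a chain as a decreasing sequence of bits. -/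
def code {N : ℕ} (x : Fin N) : Fin N → Bool := fun t => decide (t < x)

/-- The kernel `W` on bits, zero off the codes. -/
def Wt {N M : ℕ} (W : Fin N → Fin M → ℝ) (p : Fin N → Bool) (r : Fin M → Bool) : ℝ :=
  ∑ x, ∑ y, if p = code x ∧ r = code y then W x y else 0

/-- The number of occurrences of the letter `a` in the word `x`. -/
def cnt {N k : ℕ} (x : Fin k → Fin N) (a : Fin N) : ℕ := (univ.filter fun i => x i = a).card

end Vale.Agent.P050.T
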