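import Vale.Agent.P050.T.Limit

/-! P050 module GRA: the statement for simple graphs. -/

namespace Vale.Agent.P050.T

open Finset

/-- free coordinates of a sum over functions -/
theorem sum_restrict {V : Type*} [Fintype V] [DecidableEq V] (P : V → Prop) [DecidablePred P]
    (N : ℕ) (f : ({v // P v} → Fin N) → ℝ) :
    ∑ x : V → Fin N, f (fun a => x a.1) =
      (N : ℝ) ^ Fintype.card {v // ¬ P v} * ∑ x : {v // P v} → Fin N, f x := by
  have h1 : ∑ x : V → Fin N, f (fun a => x a.1) =
      ∑ z : ({v // P v} → Fin N) × ({v // ¬ P v} → Fin N), f z.1 :=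
    Fintype.sum_equiv (Equiv.piEquivPiSubtypeProd P (fun _ : V => Fin N)) _ _ (fun x => rfl)
  rw [h1, Fintype.sum_prod_type, Finset.mul_sum]
  refine Finset.sum_congr rfl fun x _ => ?_
  simp only [Finset.sum_const, Finset.card_univ, Fintype.card_fun, Fintype.card_fin, nsmul_eq_mul]
  push_cast
  ring

theorem card_compl_pow {V : Type*} [Fintype V] [DecidableEq V] (P : V → Prop) [DecidablePred P]
    (t : ℝ) : t ^ Fintype.card V = t ^ Fintype.card {v // P v} * t ^ Fintype.card {v // ¬ P v} := by
  rw [← pow_add]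
  congr 1
  have h := Fintype.card_congr (Equiv.sumCompl P)
  rw [Fintype.card_sum] at h
  exact h.symm

/-- `H` is a simple graph on `V` and `c : V → Bool` a proper colouring.  `W` is an arbitrary (not
necessarily symmetric) kernel, the variables of the vertices of colour `false` go to the first
argument and live in `Fin N`, those of colour `true` in `Fin M`.  The sum is over
`x : V → Fin N`, `y : V → Fin M`, of which only the values `x v` for `c v = false` and `y v` for
`c v = true` matter; so it is normalized by `N ^ card V * M ^ card V`.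
Apply `tp2_sidorenko` with `A` = non-isolated vertices of colour `false`, `B` = non-isolated vertices
of colour `true`, `E` = the edges (as pairs `(a, b)` with `c a = false`, `c b = true`, adjacent);
the other values of `x`, `y` are free. -/
theorem graph_tp2 {V : Type*} [Fintype V] [DecidableEq V] (H : SimpleGraph V)
    [DecidableRel H.Adj] (c : V → Bool) (hc : ∀ u v, H.Adj u v → c u ≠ c v) {N M : ℕ}
    (hN : 0 < N) (hM : 0 < M) {W : Fin N → Fin M → ℝ} (hW : TP2 W) :
    ((∑ x, ∑ y, W x y) / ((N : ℝ) * M)) ^ H.edgeFinset.card ≤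
      (∑ x : V → Fin N, ∑ y : V → Fin M,
        ∏ e ∈ univ.filter (fun e : V × V => H.Adj e.1 e.2 ∧ c e.1 = false),
          W (x e.1) (y e.2)) / ((N : ℝ) ^ Fintype.card V * (M : ℝ) ^ Fintype.card V) := by
  classical
  set PA : V → Prop := fun v => c v = false ∧ ∃ w, H.Adj v w with hPA
  set PB : V → Prop := fun v => c v = true ∧ ∃ w, H.Adj v w with hPB
  let E := {e : V × V // H.Adj e.1 e.2 ∧ c e.1 = false}
  have hct : ∀ e : E, c e.1.2 = true := by
    intro e
    have h := hc _ _ e.2.1
    rw [e.2.2] at h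
    cases h2 : c e.1.2
    · exact absurd h2.symm h
    · rfl
  let α : E → {v // PA v} := fun e => ⟨e.1.1, e.2.2, e.1.2, e.2.1⟩
  let β : E → {v // PB v} := fun e => ⟨e.1.2, hct e, e.1.1, e.2.1.symm⟩
  have hα : Function.Surjective α := by
    rintro ⟨v, hv, w, hw⟩
    exact ⟨⟨(v, w), hw, hv⟩, rfl⟩
  have hβ : Function.Surjective β := by
    rintro ⟨v, hv, w, hw⟩
    have h := hc _ _ hw
    rw [hv] at h
    have hw2 : c w = false := by
      cases h2 : c w
      · rfl
      · exact absurd h2.symm h
    exact ⟨⟨(w, v), hw.symm, hw2⟩, rfl⟩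
  have hcard : Fintype.card E = H.edgeFinset.card := by
    rw [SimpleGraph.edgeFinset_card]
    refine Fintype.card_of_bijective (f := fun e : E => (⟨s(e.1.1, e.1.2), e.2.1⟩ : H.edgeSet)) ?_
    constructor
    · rintro ⟨⟨a, b⟩, h1, h2⟩ ⟨⟨a', b'⟩, h1', h2'⟩ h
      have h5 : s(a, b) = s(a', b') := congrArg Subtype.val h
      rw [Sym2.eq_iff] at h5
      rcases h5 with ⟨rfl, rfl⟩ | ⟨rfl, rfl⟩
      · rfl
      · exfalso
        have h3 := hc _ _ h1
        simp only at h2 h2' h3
        rw [h2, h2'] at h3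
        exact h3 rfl
    · rintro ⟨e, he⟩
      induction e using Sym2.ind with
      | _ a b =>
        have he' : H.Adj a b := he
        cases h2 : c a
        · exact ⟨⟨(a, b), he', h2⟩, rfl⟩
        · have h3 := hc _ _ he'
          rw [h2] at h3
          have hb : c b = false := by
            cases h4 : c b
            · rfl
            · exact absurd h4.symm h3
          refine ⟨⟨(b, a), he'.symm, hb⟩, ?_⟩
          exact Subtype.ext (Sym2.eq_swap)
  have key := tp2_sidorenko hW hN hM α β hα hβ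
  rw [hcard] at key
  have hprod : ∀ (x : V → Fin N) (y : V → Fin M),
      ∏ e ∈ univ.filter (fun e : V × V => H.Adj e.1 e.2 ∧ c e.1 = false), W (x e.1) (y e.2)
        = ∏ e : E, W (x (α e).1) (y (β e).1) := by
    intro x y
    exact (Finset.prod_subtype (univ.filter (fun e : V × V => H.Adj e.1 e.2 ∧ c e.1 = false))
      (by simp) (fun e : V × V => W (x e.1) (y e.2)))
  simp_rw [hprod]
  have hsum : ∑ x : V → Fin N, ∑ y : V → Fin M, ∏ e : E, W (x (α e).1) (y (β e).1)
      = (N : ℝ) ^ Fintype.card {v // ¬ PA v} * ((M : ℝ) ^ Fintype.card {v // ¬ PB v} *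
        ∑ x : {v // PA v} → Fin N, ∑ y : {v // PB v} → Fin M, ∏ e : E, W (x (α e)) (y (β e))) := by
    rw [sum_restrict PA N (fun x : {v // PA v} → Fin N =>
      ∑ y : V → Fin M, ∏ e : E, W (x (α e)) (y (β e).1))]
    congr 1
    rw [Finset.mul_sum]
    refine Finset.sum_congr rfl fun x _ => ?_
    rw [sum_restrict PB M (fun y : {v // PB v} → Fin M => ∏ e : E, W (x (α e)) (y (β e)))]
  rw [hsum, card_compl_pow PA (N : ℝ), card_compl_pow PB (M : ℝ)]
  have hN' : (0 : ℝ) < N := by exact_mod_cast hN
  have hM' : (0 : ℝ) < M := by exact_mod_cast hM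
  rw [le_div_iff₀ (by positivity)]
  set T := ∑ x : {v // PA v} → Fin N, ∑ y : {v // PB v} → Fin M, ∏ e : E, W (x (α e)) (y (β e))
  set q := ((∑ x, ∑ y, W x y) / ((N : ℝ) * M)) ^ H.edgeFinset.card
  have h0 : (0 : ℝ) ≤ (N : ℝ) ^ Fintype.card {v // ¬ PA v} * (M : ℝ) ^ Fintype.card {v // ¬ PB v} :=
    by positivity
  have := mul_le_mul_of_nonneg_left key h0
  nlinarith [this]

end Vale.Agent.P050.T
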