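import Vale.Agent.P050.T.Kernel

/-! P050: final forms for measurable kernels. -/

universe u

namespace Vale.Agent.P050.T

open Finset MeasureTheory Filter Topology

/-- reverse rule kernels: reverse the order of the second factor -/
theorem kernel_rr {α β : Type*} [LinearOrder α] [LinearOrder β] [MeasurableSpace α]
    [MeasurableSpace β] {A B : Type*} [Fintype A] [DecidableEq A] [Fintype B] [DecidableEq B]
    (E : Finset (A × B)) {μ : Measure α} [IsProbabilityMeasure μ] {ν : Measure β}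
    [IsProbabilityMeasure ν] {W : α → β → ℝ} (hm : Measurable (Function.uncurry W)) {C : ℝ}
    (hC : ∀ x y, W x y ≤ C) (hC0 : 0 ≤ C) (hW : ReverseRule W) :
    (∫ z, W z.1 z.2 ∂(μ.prod ν)) ^ E.card ≤
      ∫ z : (A → α) × (B → β), ∏ e ∈ E, W (z.1 e.1) (z.2 e.2)
        ∂((Measure.pi fun _ => μ).prod (Measure.pi fun _ => ν)) := by
  have hW' : TotallyPositive (α := α) (β := βᵒᵈ) W :=
    ⟨fun x y => hW.1 x y, fun x x' y y' hx hy => hW.2 x x' y' y hx hy⟩
  have : @IsProbabilityMeasure βᵒᵈ _ ν := ‹IsProbabilityMeasure ν›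
  exact @kernel_tp α βᵒᵈ _ _ _ _ A B _ _ _ _ E μ _ ν this W hm C hC hC0 hW'

/-- `∏_{uv ∈ E(H)} W(x_u, x_v)` for a symmetric kernel `W` -/
noncomputable def edgeProd {V : Type*} [Fintype V] [DecidableEq V] {α : Type*}
    (H : SimpleGraph V) [DecidableRel H.Adj] (W : α → α → ℝ) (hs : ∀ x y, W x y = W y x)
    (x : V → α) : ℝ :=
  ∏ e ∈ H.edgeFinset, Sym2.lift ⟨fun u v => W (x u) (x v), fun _ _ => hs _ _⟩ e

theorem kernel_graph {α : Type*} [LinearOrder α] [MeasurableSpace α] {V : Type*} [Fintype V]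
    [DecidableEq V] (H : SimpleGraph V) [DecidableRel H.Adj] (hH : H.Colorable 2)
    {μ : Measure α} [IsProbabilityMeasure μ] {W : α → α → ℝ}
    (hm : Measurable (Function.uncurry W)) (hs : ∀ x y, W x y = W y x) {C : ℝ}
    (hC : ∀ x y, W x y ≤ C) (hC0 : 0 ≤ C) (hW : TotallyPositive W ∨ ReverseRule W) :
    (∫ z, W z.1 z.2 ∂(μ.prod μ)) ^ H.edgeFinset.card ≤
      ∫ x : V → α, edgeProd H W hs x ∂(Measure.pi fun _ => μ) := by
  classical
  obtain ⟨c⟩ := hH
  let p : V → Prop := fun v => c v = 0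
  let E : Finset ({v // p v} × {v // ¬ p v}) :=
    univ.filter (fun e => H.Adj (e.1 : V) (e.2 : V))
  have key : (∫ z, W z.1 z.2 ∂(μ.prod μ)) ^ E.card ≤
      ∫ z : ({v // p v} → α) × ({v // ¬ p v} → α), ∏ e ∈ E, W (z.1 e.1) (z.2 e.2)
        ∂((Measure.pi fun _ => μ).prod (Measure.pi fun _ => μ)) := by
    rcases hW with hW | hW
    · exact kernel_tp E hm hC hC0 hW
    · exact kernel_rr E hm hC hC0 hW
  have hinj : Set.InjOn (fun e : {v // p v} × {v // ¬ p v} => s((e.1 : V), (e.2 : V))) E := by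
    rintro ⟨⟨a, ha⟩, ⟨b, hb⟩⟩ - ⟨⟨a', ha'⟩, ⟨b', hb'⟩⟩ - h
    simp only [Sym2.eq_iff] at h
    rcases h with ⟨h1, h2⟩ | ⟨h1, h2⟩
    · subst h1; subst h2; rfl
    · exact absurd (h1 ▸ ha) hb'
  have himg : H.edgeFinset = E.image (fun e => s((e.1 : V), (e.2 : V))) := by
    ext e
    induction e using Sym2.ind with
    | _ u v =>
      rw [SimpleGraph.mem_edgeFinset, SimpleGraph.mem_edgeSet, Finset.mem_image]
      constructor
      · intro h
        have hne : c u ≠ c v := c.valid h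
        by_cases hu : c u = 0
        · have hv : ¬ c v = 0 := fun hv => hne (hu.trans hv.symm)
          exact ⟨(⟨u, hu⟩, ⟨v, hv⟩), by simpa [E] using h, rfl⟩
        · have hv : c v = 0 := by
            have h1 : ∀ a b : Fin 2, a ≠ 0 → a ≠ b → b = 0 := by decide
            exact h1 _ _ hu hne
          exact ⟨(⟨v, hv⟩, ⟨u, hu⟩), by simpa [E] using h.symm, Sym2.eq_swap⟩
      · rintro ⟨⟨⟨a, ha⟩, ⟨b, hb⟩⟩, hab, h⟩
        have hab' : H.Adj a b := by simpa [E] using hab
        simp only [Sym2.eq_iff] at h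
        rcases h with ⟨rfl, rfl⟩ | ⟨rfl, rfl⟩
        · exact hab'
        · exact hab'.symm
  have hcard : H.edgeFinset.card = E.card := by
    rw [himg, Finset.card_image_of_injOn hinj]
  have hprod : ∀ x : V → α, edgeProd H W hs x = ∏ e ∈ E, W (x e.1) (x e.2) := by
    intro x
    unfold edgeProd
    rw [himg, Finset.prod_image hinj]
    rfl
  rw [hcard]
  refine key.trans (le_of_eq ?_)
  have hmp := (measurePreserving_piEquivPiSubtypeProd (fun _ : V => μ) p)
  have h3 := hmp.integral_comp' (g := fun z : ({v // p v} → α) × ({v // ¬ p v} → α) =>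
    ∏ e ∈ E, W (z.1 e.1) (z.2 e.2))
  rw [← h3]
  refine integral_congr_ae (Filter.Eventually.of_forall fun x => ?_)
  rw [hprod]
  rfl

end Vale.Agent.P050.T
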