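import Vale.Agent.P050.T.MDefs

/-! P050 module MEAS: measure theoretic lemmas. -/

namespace Vale.Agent.P050.T

open Finset MeasureTheory Filter Topology

/-- `Measure.pi_eq`: the preimage of the box `∏ a, s a` is the box with sides `s a` at `φ a` and
`univ` elsewhere. -/
theorem measurePreserving_comp_injective {α : Type*} [MeasurableSpace α] {A ι : Type*} [Fintype A]
    [Fintype ι] {μ : Measure α} [IsProbabilityMeasure μ] {φ : A → ι}
    (hφ : Function.Injective φ) :
    MeasurePreserving (fun x : ι → α => x ∘ φ) (Measure.pi fun _ : ι => μ)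
      (Measure.pi fun _ : A => μ) := by
  have hm : Measurable (fun x : ι → α => x ∘ φ) :=
    measurable_pi_lambda _ fun a => measurable_pi_apply (φ a)
  refine ⟨hm, (Measure.pi_eq fun s hs => ?_).symm⟩
  rw [Measure.map_apply hm (MeasurableSet.univ_pi hs)]
  have hpre : (fun x : ι → α => x ∘ φ) ⁻¹' Set.univ.pi s
      = Set.univ.pi (Function.extend φ s fun _ => Set.univ) := by
    ext x
    simp only [Set.mem_preimage, Set.mem_pi, Set.mem_univ, forall_true_left, Function.comp_apply]
    constructor
    · intro h i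
      by_cases hi : ∃ a, φ a = i
      · obtain ⟨a, rfl⟩ := hi
        rw [hφ.extend_apply]
        exact h a
      · rw [Function.extend_apply' _ _ _ hi]
        exact Set.mem_univ _
    · intro h a
      have := h (φ a)
      rwa [hφ.extend_apply] at this
  rw [hpre, Measure.pi_pi]
  refine (Fintype.prod_of_injective φ hφ (fun a => μ (s a))
    (fun i => μ (Function.extend φ s (fun _ => Set.univ) i)) ?_ ?_).symm
  · intro i hi
    have hi' : ¬∃ a, φ a = i := hi
    simp only [Function.extend_apply' _ _ _ hi', measure_univ]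
  · intro a
    simp only [hφ.extend_apply]

/-- The expectation of the product over the edges at the sample positions `φ`, `ψ` (injective) is
the density: `measurePreserving_comp_injective` for both factors and `MeasurePreserving.prod`;
`MeasurePreserving.integral_comp'` or `integral_map`. -/
theorem integral_comp_injective {α β : Type*} [MeasurableSpace α] [MeasurableSpace β]
    {A B ι κ : Type*} [Fintype A] [Fintype B] [Fintype ι] [Fintype κ] {μ : Measure α}
    [IsProbabilityMeasure μ] {ν : Measure β} [IsProbabilityMeasure ν] {φ : A → ι} {ψ : B → κ}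
    (hφ : Function.Injective φ) (hψ : Function.Injective ψ) {F : (A → α) × (B → β) → ℝ}
    (hF : Measurable F) :
    ∫ z : (ι → α) × (κ → β), F (z.1 ∘ φ, z.2 ∘ ψ)
        ∂((Measure.pi fun _ => μ).prod (Measure.pi fun _ => ν)) =
      ∫ z, F z ∂((Measure.pi fun _ => μ).prod (Measure.pi fun _ => ν)) := by
  have h := (measurePreserving_comp_injective (μ := μ) hφ).prod
    (measurePreserving_comp_injective (μ := ν) hψ)
  rw [← h.map_eq, integral_map h.measurable.aemeasurable hF.aestronglyMeasurable]
  rfl

/-- The average over the sample has expectation `∫ W` (each of the `n * n` terms has: the pair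
of coordinates `(x i, y j)` has law `μ.prod ν`), and Jensen's inequality
(`ConvexOn.map_integral_le` with `convexOn_pow`, or `inner_le_Lp_mul_Lq`); everything is
bounded by `C` and measurable. -/
theorem pow_integral_le {α β : Type*} [MeasurableSpace α] [MeasurableSpace β] {μ : Measure α}
    [IsProbabilityMeasure μ] {ν : Measure β} [IsProbabilityMeasure ν] {W : α → β → ℝ}
    (hm : Measurable (Function.uncurry W)) (h0 : ∀ x y, 0 ≤ W x y) {C : ℝ}
    (hC : ∀ x y, W x y ≤ C) {n : ℕ} (hn : 0 < n) (m : ℕ) :
    (∫ z, W z.1 z.2 ∂(μ.prod ν)) ^ m ≤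
      ∫ z : (Fin n → α) × (Fin n → β), ((∑ i, ∑ j, W (z.1 i) (z.2 j)) / ((n : ℝ) * n)) ^ m
        ∂((Measure.pi fun _ => μ).prod (Measure.pi fun _ => ν)) := by
  have hn0 : (0 : ℝ) < (n : ℝ) * n := by positivity
  have hmij : ∀ i j : Fin n, Measurable
      (fun z : (Fin n → α) × (Fin n → β) => W (z.1 i) (z.2 j)) := by
    intro i j
    have h1 : Measurable (fun z : (Fin n → α) × (Fin n → β) => (z.1 i, z.2 j)) :=
      ((measurable_pi_apply i).comp measurable_fst).prodMk
        ((measurable_pi_apply j).comp measurable_snd)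
    exact hm.comp h1
  have hintij : ∀ i j : Fin n, Integrable
      (fun z : (Fin n → α) × (Fin n → β) => W (z.1 i) (z.2 j))
      ((Measure.pi fun _ => μ).prod (Measure.pi fun _ => ν)) := fun i j =>
    Integrable.of_bound (hmij i j).aestronglyMeasurable C
      (Eventually.of_forall fun z => by
        rw [Real.norm_eq_abs, abs_of_nonneg (h0 _ _)]; exact hC _ _)
  have hij : ∀ i j : Fin n, ∫ z : (Fin n → α) × (Fin n → β), W (z.1 i) (z.2 j)
      ∂((Measure.pi fun _ => μ).prod (Measure.pi fun _ => ν)) = ∫ z, W z.1 z.2 ∂(μ.prod ν) := by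
    intro i j
    have h := (measurePreserving_eval (fun _ : Fin n => μ) i).prod
      (measurePreserving_eval (fun _ : Fin n => ν) j)
    have hF : Measurable (fun z : α × β => W z.1 z.2) := hm
    rw [← h.map_eq, integral_map h.measurable.aemeasurable hF.aestronglyMeasurable]
    rfl
  have hint : ∫ z : (Fin n → α) × (Fin n → β), (∑ i, ∑ j, W (z.1 i) (z.2 j)) / ((n : ℝ) * n)
      ∂((Measure.pi fun _ => μ).prod (Measure.pi fun _ => ν)) = ∫ z, W z.1 z.2 ∂(μ.prod ν) := by
    rw [integral_div, integral_finsetSum _ (fun i _ => integrable_finsetSum _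
      (fun j _ => hintij i j))]
    have : ∀ i : Fin n, ∫ z : (Fin n → α) × (Fin n → β), (∑ j, W (z.1 i) (z.2 j))
        ∂((Measure.pi fun _ => μ).prod (Measure.pi fun _ => ν))
        = n * ∫ z, W z.1 z.2 ∂(μ.prod ν) := by
      intro i
      rw [integral_finsetSum _ (fun j _ => hintij i j)]
      simp only [hij, Finset.sum_const, Finset.card_univ, Fintype.card_fin, nsmul_eq_mul]
    simp only [this, Finset.sum_const, Finset.card_univ, Fintype.card_fin, nsmul_eq_mul]
    rw [← mul_assoc, mul_comm ((n : ℝ) * n), mul_div_assoc, div_self hn0.ne', mul_one]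
  have hmeas : Measurable (fun z : (Fin n → α) × (Fin n → β) =>
      (∑ i, ∑ j, W (z.1 i) (z.2 j)) / ((n : ℝ) * n)) :=
    (Finset.measurable_fun_sum _ fun i _ => Finset.measurable_fun_sum _ fun j _ =>
      hmij i j).div_const _
  have hf0 : ∀ z : (Fin n → α) × (Fin n → β),
      0 ≤ (∑ i, ∑ j, W (z.1 i) (z.2 j)) / ((n : ℝ) * n) := fun z =>
    div_nonneg (Finset.sum_nonneg fun i _ => Finset.sum_nonneg fun j _ => h0 _ _) hn0.le
  have hfC : ∀ z : (Fin n → α) × (Fin n → β),
      (∑ i, ∑ j, W (z.1 i) (z.2 j)) / ((n : ℝ) * n) ≤ C := fun z => by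
    rw [div_le_iff₀ hn0]
    calc (∑ i, ∑ j, W (z.1 i) (z.2 j)) ≤ ∑ _i : Fin n, ∑ _j : Fin n, C :=
          Finset.sum_le_sum fun i _ => Finset.sum_le_sum fun j _ => hC _ _
      _ = C * ((n : ℝ) * n) := by
          simp only [Finset.sum_const, Finset.card_univ, Fintype.card_fin, nsmul_eq_mul]; ring
  have hi1 : Integrable (fun z : (Fin n → α) × (Fin n → β) =>
      (∑ i, ∑ j, W (z.1 i) (z.2 j)) / ((n : ℝ) * n))
      ((Measure.pi fun _ => μ).prod (Measure.pi fun _ => ν)) :=
    Integrable.of_bound hmeas.aestronglyMeasurable C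
      (Eventually.of_forall fun z => by
        rw [Real.norm_eq_abs, abs_of_nonneg (hf0 z)]; exact hfC z)
  have hi2 : Integrable (fun z : (Fin n → α) × (Fin n → β) =>
      ((∑ i, ∑ j, W (z.1 i) (z.2 j)) / ((n : ℝ) * n)) ^ m)
      ((Measure.pi fun _ => μ).prod (Measure.pi fun _ => ν)) :=
    Integrable.of_bound (hmeas.pow_const m).aestronglyMeasurable (C ^ m)
      (Eventually.of_forall fun z => by
        rw [Real.norm_eq_abs, abs_of_nonneg (pow_nonneg (hf0 z) m)]
        exact pow_le_pow_left₀ (hf0 z) (hfC z) m)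
  have hJ := (convexOn_pow (𝕜 := ℝ) m).map_integral_le (continuous_pow m).continuousOn isClosed_Ici
    (Eventually.of_forall fun z => Set.mem_Ici.2 (hf0 z)) hi1 hi2
  rw [hint] at hJ
  exact hJ

/-- The number of the injective maps is `n.descFactorial (card A)`
(`Fintype.card_embedding_eq`); the proportion of injective maps tends to one. -/
theorem tendsto_inj (a : ℕ) :
    Tendsto (fun n : ℕ => (n.descFactorial a : ℝ) / (n : ℝ) ^ a) atTop (𝓝 1) := by
  induction a with
  | zero => simp
  | succ a ih =>
    have h1 : Tendsto (fun n : ℕ => 1 - (a : ℝ) / (n : ℝ)) atTop (𝓝 1) := by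
      have := (tendsto_const_div_atTop_nhds_zero_nat (a : ℝ)).const_sub 1
      simpa using this
    have h2 := h1.mul ih
    rw [one_mul] at h2
    refine h2.congr' ?_
    filter_upwards [eventually_ge_atTop (a + 1)] with n hn
    have hn0 : (n : ℝ) ≠ 0 := by
      have : 0 < n := by omega
      positivity
    rw [Nat.descFactorial_succ, Nat.cast_mul, Nat.cast_sub (by omega), pow_succ]
    field_simp

end Vale.Agent.P050.T
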