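import Vale.Agent.P050.T.Sample
import Vale.Agent.P050.T.Meas

/-! P050 module KER: Sidorenko's inequality for totally positive measurable kernels. -/

namespace Vale.Agent.P050.T

open Finset MeasureTheory Filter Topology

private theorem ker_card (A : Type*) [Fintype A] [DecidableEq A] (n : ℕ) :
    (∑ φ : A → Fin n, (open Classical in if Function.Injective φ then (1 : ℝ) else 0)) =
      (n.descFactorial (Fintype.card A) : ℝ) := by
  classical
  have h1 : Fintype.card {φ : A → Fin n // Function.Injective φ} =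
      n.descFactorial (Fintype.card A) := by
    rw [Fintype.card_congr (Equiv.subtypeInjectiveEquivEmbedding A (Fin n)),
      Fintype.card_embedding_eq, Fintype.card_fin]
  rw [Finset.sum_boole, ← Fintype.card_subtype, ← h1]

private theorem ker_alg {a b NA NB t c : ℝ} (hA : NA ≠ 0) (hB : NB ≠ 0) :
    (NA * NB * c + (t - c) * (a * b)) / (NA * NB) =
      (a / NA * (b / NB)) * t + (1 - a / NA * (b / NB)) * c := by
  field_simp
  ring

/-- For every `n ≥ 1`: integrate `sample_ineq` over the samples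
(`z : (Fin n → α) × (Fin n → β)`) and use `pow_integral_le` on the left.  On the right, each pair
`(φ, ψ)` of injective maps contributes `t` (`integral_comp_injective`), all other pairs at most
`C ^ E.card`.  With `r n = n.descFactorial (card A) / n ^ card A * (n.descFactorial (card B) /
n ^ card B)` the inequality is `p ^ E.card ≤ r n * t + (1 - r n) * C ^ E.card`. -/
theorem kernel_step {α β : Type*} [LinearOrder α] [LinearOrder β] [MeasurableSpace α]
    [MeasurableSpace β] {A B : Type*} [Fintype A] [DecidableEq A] [Fintype B] [DecidableEq B]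
    (E : Finset (A × B)) {μ : Measure α} [IsProbabilityMeasure μ] {ν : Measure β}
    [IsProbabilityMeasure ν] {W : α → β → ℝ} (hm : Measurable (Function.uncurry W)) {C : ℝ}
    (hC : ∀ x y, W x y ≤ C) (hC0 : 0 ≤ C) (hW : TotallyPositive W) {n : ℕ} (hn : 0 < n) :
    (∫ z, W z.1 z.2 ∂(μ.prod ν)) ^ E.card ≤
      ((n.descFactorial (Fintype.card A) : ℝ) / (n : ℝ) ^ Fintype.card A *
        ((n.descFactorial (Fintype.card B) : ℝ) / (n : ℝ) ^ Fintype.card B)) *
        (∫ z : (A → α) × (B → β), ∏ e ∈ E, W (z.1 e.1) (z.2 e.2)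
          ∂((Measure.pi fun _ => μ).prod (Measure.pi fun _ => ν))) +
      (1 - (n.descFactorial (Fintype.card A) : ℝ) / (n : ℝ) ^ Fintype.card A *
        ((n.descFactorial (Fintype.card B) : ℝ) / (n : ℝ) ^ Fintype.card B)) * C ^ E.card := by
  classical
  set M : Measure ((Fin n → α) × (Fin n → β)) :=
    (Measure.pi fun _ => μ).prod (Measure.pi fun _ => ν) with hM
  set t : ℝ := ∫ z : (A → α) × (B → β), ∏ e ∈ E, W (z.1 e.1) (z.2 e.2)
    ∂((Measure.pi fun _ => μ).prod (Measure.pi fun _ => ν)) with ht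
  set G : (A → Fin n) → (B → Fin n) → (Fin n → α) × (Fin n → β) → ℝ :=
    fun φ ψ z => ∏ e ∈ E, W (z.1 (φ e.1)) (z.2 (ψ e.2)) with hG
  have hn' : (0 : ℝ) < n := by exact_mod_cast hn
  have hNA : (0 : ℝ) < (n : ℝ) ^ Fintype.card A := pow_pos hn' _
  have hNB : (0 : ℝ) < (n : ℝ) ^ Fintype.card B := pow_pos hn' _
  have hGm : ∀ φ ψ, Measurable (G φ ψ) := by
    intro φ ψ
    refine Finset.measurable_fun_prod E fun e _ => ?_
    have m1 : Measurable fun z : (Fin n → α) × (Fin n → β) => z.1 (φ e.1) :=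
      (measurable_pi_apply (φ e.1)).comp measurable_fst
    have m2 : Measurable fun z : (Fin n → α) × (Fin n → β) => z.2 (ψ e.2) :=
      (measurable_pi_apply (ψ e.2)).comp measurable_snd
    exact hm.comp (m1.prodMk m2)
  have hG0 : ∀ φ ψ z, 0 ≤ G φ ψ z := fun φ ψ z => Finset.prod_nonneg fun e _ => hW.1 _ _
  have hG1 : ∀ φ ψ z, G φ ψ z ≤ C ^ E.card := by
    intro φ ψ z
    calc G φ ψ z ≤ ∏ _e ∈ E, C := Finset.prod_le_prod (fun e _ => hW.1 _ _) (fun e _ => hC _ _)
      _ = C ^ E.card := by rw [Finset.prod_const]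
  have hGi : ∀ φ ψ, Integrable (G φ ψ) M := by
    intro φ ψ
    refine Integrable.of_bound (hGm φ ψ).aestronglyMeasurable (C ^ E.card)
      (Eventually.of_forall fun z => ?_)
    rw [Real.norm_of_nonneg (hG0 φ ψ z)]
    exact hG1 φ ψ z
  have hbound : ∀ φ ψ, ∫ z, G φ ψ z ∂M ≤ C ^ E.card + (t - C ^ E.card) *
      ((if Function.Injective φ then (1 : ℝ) else 0) *
        (if Function.Injective ψ then (1 : ℝ) else 0)) := by
    intro φ ψ
    have hc : ∫ z, G φ ψ z ∂M ≤ C ^ E.card := by
      calc ∫ z, G φ ψ z ∂M ≤ ∫ _, C ^ E.card ∂M :=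
            integral_mono (hGi φ ψ) (integrable_const _) (hG1 φ ψ)
        _ = C ^ E.card := by simp
    by_cases h1 : Function.Injective φ
    · by_cases h2 : Function.Injective ψ
      · rw [if_pos h1, if_pos h2, mul_one, mul_one, add_sub_cancel]
        have h3 := integral_comp_injective (μ := μ) (ν := ν) h1 h2
          (F := fun z : (A → α) × (B → β) => ∏ e ∈ E, W (z.1 e.1) (z.2 e.2)) (by
            refine Finset.measurable_fun_prod E fun e _ => ?_
            have m1 : Measurable fun z : (A → α) × (B → β) => z.1 e.1 :=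
              (measurable_pi_apply e.1).comp measurable_fst
            have m2 : Measurable fun z : (A → α) × (B → β) => z.2 e.2 :=
              (measurable_pi_apply e.2).comp measurable_snd
            exact hm.comp (m1.prodMk m2))
        exact h3.le
      · rw [if_neg h2, mul_zero, mul_zero, add_zero]
        exact hc
    · rw [if_neg h1, zero_mul, mul_zero, add_zero]
      exact hc
  have h1 := pow_integral_le hm hW.1 hC hn (μ := μ) (ν := ν) E.card
  rw [← hM] at h1
  refine h1.trans ?_
  have h2 : ∫ z, ((∑ i, ∑ j, W (z.1 i) (z.2 j)) / ((n : ℝ) * n)) ^ E.card ∂M ≤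
      ∫ z, (∑ φ, ∑ ψ, G φ ψ z) / ((n : ℝ) ^ Fintype.card A * (n : ℝ) ^ Fintype.card B) ∂M := by
    refine integral_mono_of_nonneg (Eventually.of_forall fun z => ?_) ?_
      (Eventually.of_forall fun z => ?_)
    · exact pow_nonneg (div_nonneg (Finset.sum_nonneg fun i _ =>
        Finset.sum_nonneg fun j _ => hW.1 _ _) (by positivity)) _
    · exact (integrable_finsetSum _ fun φ _ => integrable_finsetSum _ fun ψ _ =>
        hGi φ ψ).div_const _
    · exact sample_ineq E hn hW z.1 z.2
  refine h2.trans ?_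
  rw [integral_div, integral_finsetSum _ (fun φ _ => integrable_finsetSum _ fun ψ _ => hGi φ ψ)]
  have h3 : ∑ φ, ∫ z, ∑ ψ, G φ ψ z ∂M = ∑ φ, ∑ ψ, ∫ z, G φ ψ z ∂M :=
    Finset.sum_congr rfl fun φ _ => integral_finsetSum _ fun ψ _ => hGi φ ψ
  rw [h3, ← ker_alg hNA.ne' hNB.ne']
  refine div_le_div_of_nonneg_right ?_ (by positivity)
  refine (Finset.sum_le_sum fun φ _ => Finset.sum_le_sum fun ψ _ => hbound φ ψ).trans
    (le_of_eq ?_)
  simp only [Finset.sum_add_distrib, ← Finset.mul_sum]
  rw [← Finset.sum_mul, ker_card A n, ker_card B n]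
  simp only [Finset.sum_const, Finset.card_univ, Fintype.card_fun, Fintype.card_fin, nsmul_eq_mul]
  push_cast
  ring

/-- `kernel_step` and `tendsto_inj`, `n → ∞`. -/
theorem kernel_tp {α β : Type*} [LinearOrder α] [LinearOrder β] [MeasurableSpace α]
    [MeasurableSpace β] {A B : Type*} [Fintype A] [DecidableEq A] [Fintype B] [DecidableEq B]
    (E : Finset (A × B)) {μ : Measure α} [IsProbabilityMeasure μ] {ν : Measure β}
    [IsProbabilityMeasure ν] {W : α → β → ℝ} (hm : Measurable (Function.uncurry W)) {C : ℝ}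
    (hC : ∀ x y, W x y ≤ C) (hC0 : 0 ≤ C) (hW : TotallyPositive W) :
    (∫ z, W z.1 z.2 ∂(μ.prod ν)) ^ E.card ≤
      ∫ z : (A → α) × (B → β), ∏ e ∈ E, W (z.1 e.1) (z.2 e.2)
        ∂((Measure.pi fun _ => μ).prod (Measure.pi fun _ => ν)) := by
  have hA := tendsto_inj (Fintype.card A)
  have hB := tendsto_inj (Fintype.card B)
  have hr := hA.mul hB
  rw [mul_one] at hr
  have h1 : Tendsto (fun n : ℕ =>
      ((n.descFactorial (Fintype.card A) : ℝ) / (n : ℝ) ^ Fintype.card A *
        ((n.descFactorial (Fintype.card B) : ℝ) / (n : ℝ) ^ Fintype.card B)) *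
        (∫ z : (A → α) × (B → β), ∏ e ∈ E, W (z.1 e.1) (z.2 e.2)
          ∂((Measure.pi fun _ => μ).prod (Measure.pi fun _ => ν))) +
      (1 - (n.descFactorial (Fintype.card A) : ℝ) / (n : ℝ) ^ Fintype.card A *
        ((n.descFactorial (Fintype.card B) : ℝ) / (n : ℝ) ^ Fintype.card B)) * C ^ E.card)
      atTop (𝓝 (1 * (∫ z : (A → α) × (B → β), ∏ e ∈ E, W (z.1 e.1) (z.2 e.2)
          ∂((Measure.pi fun _ => μ).prod (Measure.pi fun _ => ν))) +
        (1 - 1) * C ^ E.card)) :=
    (hr.mul_const _).add ((tendsto_const_nhds.sub hr).mul_const _)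
  rw [sub_self, zero_mul, add_zero, one_mul] at h1
  refine ge_of_tendsto h1 ?_
  filter_upwards [eventually_gt_atTop 0] with n hn
  exact kernel_step E hm hC hC0 hW hn

end Vale.Agent.P050.T
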