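import Vale.Agent.P050.T.KLift
import Vale.Agent.P050.T.Bits

/-! P050 module LIFT: `t (H_σ, W) ≤ t (H, W) ^ k` for every `k`-lift of a bipartite (multi)graph. -/

namespace Vale.Agent.P050.T

open Finset

variable {N M k : ℕ} {A B E : Type*} [Fintype A] [DecidableEq A] [Fintype B] [DecidableEq B]
  [Fintype E] [DecidableEq E]

/-- the weight of a state of all bits of all copies -/
def gLift (W : Fin N → Fin M → ℝ) (α : E → A) (β : E → B) (σ : E → Equiv.Perm (Fin k))
    (s : (A × Fin N) ⊕ (B × Fin M) → Finset (Fin k)) : ℝ :=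
  ∏ e, ∏ i, Wt W (fun t => decide (i ∈ s (Sum.inl (α e, t))))
    (fun t => decide (σ e i ∈ s (Sum.inr (β e, t))))

/-- the weight of a state of all bits -/
def fLift (W : Fin N → Fin M → ℝ) (α : E → A) (β : E → B)
    (y : (A × Fin N) ⊕ (B × Fin M) → Bool) : ℝ :=
  ∏ e, Wt W (fun t => y (Sum.inl (α e, t))) (fun t => y (Sum.inr (β e, t)))

/-- product of the log-supermodular functions `Wt` composed with lattice homomorphisms -/
theorem lsm_gLift {W : Fin N → Fin M → ℝ} (hW : TP2 W) (α : E → A) (β : E → B)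
    (σ : E → Equiv.Perm (Fin k)) : LSM (gLift W α β σ) := by
  obtain ⟨h0, h1⟩ := lsm_Wt hW
  constructor
  · intro s
    exact Finset.prod_nonneg fun e _ => Finset.prod_nonneg fun i _ => h0 (_, _)
  · intro s s'
    unfold gLift
    rw [← Finset.prod_mul_distrib, ← Finset.prod_mul_distrib]
    refine Finset.prod_le_prod (fun e _ => mul_nonneg
      (Finset.prod_nonneg fun i _ => h0 (_, _)) (Finset.prod_nonneg fun i _ => h0 (_, _)))
      fun e _ => ?_
    rw [← Finset.prod_mul_distrib, ← Finset.prod_mul_distrib]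
    refine Finset.prod_le_prod (fun i _ => mul_nonneg (h0 (_, _)) (h0 (_, _))) fun i _ => ?_
    have h2 := h1 (fun t => decide (i ∈ s (Sum.inl (α e, t))),
      fun t => decide (σ e i ∈ s (Sum.inr (β e, t))))
      (fun t => decide (i ∈ s' (Sum.inl (α e, t))),
      fun t => decide (σ e i ∈ s' (Sum.inr (β e, t))))
    refine h2.trans (le_of_eq ?_)
    have e1 : (fun t => decide (i ∈ (s ⊓ s') (Sum.inl (α e, t)))) =
        (fun t => decide (i ∈ s (Sum.inl (α e, t)))) ⊓
          (fun t => decide (i ∈ s' (Sum.inl (α e, t)))) := by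
      funext t
      by_cases ha : i ∈ s (Sum.inl (α e, t)) <;> by_cases hb : i ∈ s' (Sum.inl (α e, t)) <;>
        simp [ha, hb]
    have e2 : (fun t => decide (σ e i ∈ (s ⊓ s') (Sum.inr (β e, t)))) =
        (fun t => decide (σ e i ∈ s (Sum.inr (β e, t)))) ⊓
          (fun t => decide (σ e i ∈ s' (Sum.inr (β e, t)))) := by
      funext t
      by_cases ha : σ e i ∈ s (Sum.inr (β e, t)) <;>
        by_cases hb : σ e i ∈ s' (Sum.inr (β e, t)) <;> simp [ha, hb]
    have e3 : (fun t => decide (i ∈ (s ⊔ s') (Sum.inl (α e, t)))) =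
        (fun t => decide (i ∈ s (Sum.inl (α e, t)))) ⊔
          (fun t => decide (i ∈ s' (Sum.inl (α e, t)))) := by
      funext t
      by_cases ha : i ∈ s (Sum.inl (α e, t)) <;> by_cases hb : i ∈ s' (Sum.inl (α e, t)) <;>
        simp [ha, hb]
    have e4 : (fun t => decide (σ e i ∈ (s ⊔ s') (Sum.inr (β e, t)))) =
        (fun t => decide (σ e i ∈ s (Sum.inr (β e, t)))) ⊔
          (fun t => decide (σ e i ∈ s' (Sum.inr (β e, t)))) := by
      funext t
      by_cases ha : σ e i ∈ s (Sum.inr (β e, t)) <;>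
        by_cases hb : σ e i ∈ s' (Sum.inr (β e, t)) <;> simp [ha, hb]
    rw [e1, e2, e3, e4]
    rfl

/-- edge by edge `uncrossB` with `G p = Wt W p.1 p.2` -/
theorem gLift_le {W : Fin N → Fin M → ℝ} (hW : TP2 W) (α : E → A) (β : E → B)
    (σ : E → Equiv.Perm (Fin k)) (s : (A × Fin N) ⊕ (B × Fin M) → Finset (Fin k)) :
    gLift W α β σ s ≤ ∏ j : Fin k, fLift W α β (fun b => decide ((j : ℕ) < (s b).card)) := by
  have hL := lsm_Wt hW
  unfold gLift fLift
  rw [Finset.prod_comm (s := (Finset.univ : Finset (Fin k)))]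
  refine Finset.prod_le_prod (fun e _ => Finset.prod_nonneg fun i _ => hL.1 (_, _)) fun e _ => ?_
  have h2 := uncrossB hL (fun (i : Fin k) (t : Fin N) => decide (i ∈ s (Sum.inl (α e, t))))
    (fun (i : Fin k) (t : Fin M) => decide (σ e i ∈ s (Sum.inr (β e, t))))
  refine h2.trans (le_of_eq ?_)
  refine Finset.prod_congr rfl fun j _ => ?_
  have e1 : ostB (fun (i : Fin k) (t : Fin N) => decide (i ∈ s (Sum.inl (α e, t)))) j =
      fun t => decide ((j : ℕ) < (s (Sum.inl (α e, t))).card) := by
    funext t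
    unfold ostB
    congr 3
    simp
  have e2 : ostB (fun (i : Fin k) (t : Fin M) => decide (σ e i ∈ s (Sum.inr (β e, t)))) j =
      fun t => decide ((j : ℕ) < (s (Sum.inr (β e, t))).card) := by
    funext t
    unfold ostB
    have h3 : (univ.filter fun l => decide (σ e l ∈ s (Sum.inr (β e, t))) = true) =
        (s (Sum.inr (β e, t))).map (σ e).symm.toEmbedding := by
      ext l
      simp only [mem_filter, mem_univ, true_and, decide_eq_true_eq, mem_map_equiv,
        Equiv.symm_symm]
    rw [h3, card_map]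
  show Wt W _ _ = _
  rw [e1, e2]

/-- the states of nonzero weight are the `s (inl (a, t)) = {i | t < x a i}`,
`s (inr (b, t)) = {i | t < y b i}` -/
theorem sum_gLift (W : Fin N → Fin M → ℝ) (α : E → A) (β : E → B)
    (hα : Function.Surjective α) (hβ : Function.Surjective β) (σ : E → Equiv.Perm (Fin k)) :
    ∑ s, gLift W α β σ s = ∑ x : A → Fin k → Fin N, ∑ y : B → Fin k → Fin M,
      ∏ e, ∏ i, W (x (α e) i) (y (β e) (σ e i)) := by
  rw [← Fintype.sum_prod_type' (f := fun (x : A → Fin k → Fin N) (y : B → Fin k → Fin M) =>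
      ∏ e, ∏ i, W (x (α e) i) (y (β e) (σ e i)))]
  symm
  let φ : (A → Fin k → Fin N) × (B → Fin k → Fin M) →
      ((A × Fin N) ⊕ (B × Fin M) → Finset (Fin k)) := fun p =>
    Sum.elim (fun q => univ.filter fun i => q.2 < p.1 q.1 i)
      (fun q => univ.filter fun i => q.2 < p.2 q.1 i)
  have hl : ∀ p a i, (fun t => decide (i ∈ φ p (Sum.inl (a, t)))) = code (p.1 a i) := by
    intro p a i
    funext t
    simp [φ, code]
  have hr : ∀ p b i, (fun t => decide (i ∈ φ p (Sum.inr (b, t)))) = code (p.2 b i) := by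
    intro p b i
    funext t
    simp [φ, code]
  refine Finset.sum_of_injOn φ ?_ (fun p _ => by simp) ?_ ?_
  · intro p _ p' _ h
    refine Prod.ext ?_ ?_
    · funext a i
      apply code_injective
      rw [← hl p, ← hl p', h]
    · funext b i
      apply code_injective
      rw [← hr p, ← hr p', h]
  · intro s _ hs
    by_contra hne
    apply hs
    have hW : ∀ e i, Wt W (fun t => decide (i ∈ s (Sum.inl (α e, t))))
        (fun t => decide (σ e i ∈ s (Sum.inr (β e, t)))) ≠ 0 := by
      intro e i h0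
      apply hne
      unfold gLift
      exact Finset.prod_eq_zero (Finset.mem_univ e) (Finset.prod_eq_zero (Finset.mem_univ i) h0)
    have hc : ∀ e i, (∃ x : Fin N, (fun t => decide (i ∈ s (Sum.inl (α e, t)))) = code x) ∧
        ∃ y : Fin M, (fun t => decide (σ e i ∈ s (Sum.inr (β e, t)))) = code y := by
      intro e i
      by_contra h
      exact hW e i (Wt_eq_zero W h)
    have hX : ∀ a i, ∃ x : Fin N, (fun t => decide (i ∈ s (Sum.inl (a, t)))) = code x := by
      intro a i
      obtain ⟨e, rfl⟩ := hα a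
      exact (hc e i).1
    have hY : ∀ b i, ∃ y : Fin M, (fun t => decide (i ∈ s (Sum.inr (b, t)))) = code y := by
      intro b i
      obtain ⟨e, rfl⟩ := hβ b
      have := (hc e ((σ e).symm i)).2
      rwa [Equiv.apply_symm_apply] at this
    choose X hX using hX
    choose Y hY using hY
    refine ⟨(X, Y), by simp, ?_⟩
    funext q
    rcases q with ⟨a, t⟩ | ⟨b, t⟩
    · ext i
      have h1 := congrFun (hX a i) t
      have h2 := congrFun (hl (X, Y) a i) t
      have h3 : decide (i ∈ φ (X, Y) (Sum.inl (a, t))) = decide (i ∈ s (Sum.inl (a, t))) :=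
        h2.trans h1.symm
      simpa using h3
    · ext i
      have h1 := congrFun (hY b i) t
      have h2 := congrFun (hr (X, Y) b i) t
      have h3 : decide (i ∈ φ (X, Y) (Sum.inr (b, t))) = decide (i ∈ s (Sum.inr (b, t))) :=
        h2.trans h1.symm
      simpa using h3
  · intro p _
    unfold gLift
    refine Finset.prod_congr rfl fun e _ => Finset.prod_congr rfl fun i _ => ?_
    rw [hl, hr, Wt_code]

theorem sum_fLift (W : Fin N → Fin M → ℝ) (α : E → A) (β : E → B)
    (hα : Function.Surjective α) (hβ : Function.Surjective β) :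
    ∑ y, fLift W α β y = ∑ x : A → Fin N, ∑ y : B → Fin M, ∏ e, W (x (α e)) (y (β e)) := by
  rw [← Fintype.sum_prod_type' (f := fun (x : A → Fin N) (y : B → Fin M) =>
      ∏ e, W (x (α e)) (y (β e)))]
  symm
  let φ : (A → Fin N) × (B → Fin M) → ((A × Fin N) ⊕ (B × Fin M) → Bool) := fun p =>
    Sum.elim (fun q => decide (q.2 < p.1 q.1)) (fun q => decide (q.2 < p.2 q.1))
  have hl : ∀ p a, (fun t => φ p (Sum.inl (a, t))) = code (p.1 a) := fun p a => rfl
  have hr : ∀ p b, (fun t => φ p (Sum.inr (b, t))) = code (p.2 b) := fun p b => rfl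
  refine Finset.sum_of_injOn φ ?_ (fun p _ => by simp) ?_ ?_
  · intro p _ p' _ h
    refine Prod.ext ?_ ?_
    · funext a
      apply code_injective
      rw [← hl p, ← hl p', h]
    · funext b
      apply code_injective
      rw [← hr p, ← hr p', h]
  · intro s _ hs
    by_contra hne
    apply hs
    have hW : ∀ e, Wt W (fun t => s (Sum.inl (α e, t))) (fun t => s (Sum.inr (β e, t))) ≠ 0 := by
      intro e h0
      apply hne
      unfold fLift
      exact Finset.prod_eq_zero (Finset.mem_univ e) h0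
    have hc : ∀ e, (∃ x : Fin N, (fun t => s (Sum.inl (α e, t))) = code x) ∧
        ∃ y : Fin M, (fun t => s (Sum.inr (β e, t))) = code y := by
      intro e
      by_contra h
      exact hW e (Wt_eq_zero W h)
    have hX : ∀ a, ∃ x : Fin N, (fun t => s (Sum.inl (a, t))) = code x := by
      intro a
      obtain ⟨e, rfl⟩ := hα a
      exact (hc e).1
    have hY : ∀ b, ∃ y : Fin M, (fun t => s (Sum.inr (b, t))) = code y := by
      intro b
      obtain ⟨e, rfl⟩ := hβ b
      exact (hc e).2
    choose X hX using hX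
    choose Y hY using hY
    refine ⟨(X, Y), by simp, ?_⟩
    funext q
    rcases q with ⟨a, t⟩ | ⟨b, t⟩
    · exact (congrFun (hl (X, Y) a) t).trans (congrFun (hX a) t).symm
    · exact (congrFun (hr (X, Y) b) t).trans (congrFun (hY b) t).symm
  · intro p _
    unfold fLift
    refine Finset.prod_congr rfl fun e _ => ?_
    rw [hl, hr, Wt_code]

/-- from `klift'` and the four theorems above -/
theorem lift_ineq {W : Fin N → Fin M → ℝ} (hW : TP2 W) (α : E → A) (β : E → B)
    (hα : Function.Surjective α) (hβ : Function.Surjective β) (σ : E → Equiv.Perm (Fin k)) :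
    ∑ x : A → Fin k → Fin N, ∑ y : B → Fin k → Fin M,
      ∏ e, ∏ i, W (x (α e) i) (y (β e) (σ e i)) ≤
    (∑ x : A → Fin N, ∑ y : B → Fin M, ∏ e, W (x (α e)) (y (β e))) ^ k := by
  rw [← sum_gLift W α β hα hβ σ, ← sum_fLift W α β hα hβ]
  exact klift' (lsm_gLift hW α β σ)
    (fun y => Finset.prod_nonneg fun e _ => (lsm_Wt hW).1 (_, _)) (gLift_le hW α β σ)

end Vale.Agent.P050.T
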