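import Mathlib

/-! P050, measurable kernels: definitions. -/

namespace Vale.Agent.P050.T

/-- Totally positive of order two: nonnegative, and
`W x y' * W x' y ≤ W x y * W x' y'` for `x ≤ x'`, `y ≤ y'` (log-supermodular). -/
def TotallyPositive {α β : Type*} [LinearOrder α] [LinearOrder β] (W : α → β → ℝ) : Prop :=
  (∀ x y, 0 ≤ W x y) ∧
    ∀ x x' y y', x ≤ x' → y ≤ y' → W x y' * W x' y ≤ W x y * W x' y'

/-- Reverse rule: nonnegative, and `W x y * W x' y' ≤ W x y' * W x' y` for `x ≤ x'`, `y ≤ y'`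
(log-submodular). -/
def ReverseRule {α β : Type*} [LinearOrder α] [LinearOrder β] (W : α → β → ℝ) : Prop :=
  (∀ x y, 0 ≤ W x y) ∧
    ∀ x x' y y', x ≤ x' → y ≤ y' → W x y * W x' y' ≤ W x y' * W x' y

end Vale.Agent.P050.T
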