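import Vale.Agent.P050.T.Defs

/-! P050 module MAJ. -/

namespace Vale.Agent.P050.T

open Finset

private theorem maj1_abel (x d : ℕ → ℝ) (hx : Antitone x) (n : ℕ)
    (hD : ∀ L ≤ n, 0 ≤ ∑ i ∈ range L, d i) :
    x n * ∑ i ∈ range n, d i ≤ ∑ i ∈ range n, x i * d i := by
  induction n with
  | zero => simp
  | succ n ih =>
    have h1 := ih fun L hL => hD L (hL.trans (Nat.le_succ n))
    have h2 := hD (n + 1) le_rfl
    have h3 : x (n + 1) * ∑ i ∈ range (n + 1), d i ≤ x n * ∑ i ∈ range (n + 1), d i :=
      mul_le_mul_of_nonneg_right (hx (Nat.le_succ n)) h2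
    refine h3.trans ?_
    rw [sum_range_succ, sum_range_succ, mul_add]
    linarith

/-- Let `m ≤ n` be the number of indices `i < n` with `x i > 0` (an initial segment as `x` is
antitone).  For `i < m` we have `y i > 0` (the product of the first `i + 1` values of `y` is
positive).  Then `y i - x i ≥ x i * log (y i / x i)` (as `t - 1 ≥ log t`), and
`∑_{i<m} x i * (log (y i) - log (x i)) ≥ 0` by summation by parts, because `x` is antitone and
nonnegative and all partial sums of `log (y i) - log (x i)` are `≥ 0`. -/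
theorem sum_le_sum_of_prod_le (n : ℕ) (x y : ℕ → ℝ) (hx0 : ∀ i, 0 ≤ x i) (hx : Antitone x)
    (hy0 : ∀ i, 0 ≤ y i) (h : ∀ L ≤ n, ∏ i ∈ range L, x i ≤ ∏ i ∈ range L, y i) :
    ∑ i ∈ range n, x i ≤ ∑ i ∈ range n, y i := by
  induction n with
  | zero => simp
  | succ n ih =>
    rcases (hx0 n).eq_or_lt with h0 | h0
    · have h1 := ih fun L hL => h L (hL.trans (Nat.le_succ n))
      rw [sum_range_succ, sum_range_succ, ← h0]
      have := hy0 n
      linarith
    · have hxp : ∀ i, i < n + 1 → 0 < x i := fun i hi =>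
        lt_of_lt_of_le h0 (hx (Nat.lt_succ_iff.1 hi))
      have hyp : ∀ i, i < n + 1 → 0 < y i := by
        intro i hi
        have h1 : 0 < ∏ j ∈ range (n + 1), x j :=
          prod_pos fun j hj => hxp j (mem_range.1 hj)
        have h2 := h1.trans_le (h (n + 1) le_rfl)
        refine (hy0 i).lt_of_ne fun hne => ?_
        rw [prod_eq_zero (mem_range.2 hi) hne.symm] at h2
        exact lt_irrefl _ h2
      set d : ℕ → ℝ := fun i => Real.log (y i) - Real.log (x i) with hd
      have hD : ∀ L ≤ n + 1, 0 ≤ ∑ i ∈ range L, d i := by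
        intro L hL
        have e1 : Real.log (∏ i ∈ range L, x i) = ∑ i ∈ range L, Real.log (x i) :=
          Real.log_prod fun i hi => (hxp i ((mem_range.1 hi).trans_le hL)).ne'
        have e2 : Real.log (∏ i ∈ range L, y i) = ∑ i ∈ range L, Real.log (y i) :=
          Real.log_prod fun i hi => (hyp i ((mem_range.1 hi).trans_le hL)).ne'
        have h1 : 0 < ∏ j ∈ range L, x j :=
          prod_pos fun j hj => hxp j ((mem_range.1 hj).trans_le hL)
        have h2 := Real.log_le_log h1 (h L hL)
        simp only [hd, sum_sub_distrib]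
        rw [e1, e2] at h2
        linarith
      have h3 := maj1_abel x d hx (n + 1) hD
      have h4 : 0 ≤ x (n + 1) * ∑ i ∈ range (n + 1), d i :=
        mul_nonneg (hx0 _) (hD (n + 1) le_rfl)
      have h5 : ∑ i ∈ range (n + 1), x i * d i ≤ ∑ i ∈ range (n + 1), (y i - x i) := by
        refine sum_le_sum fun i hi => ?_
        have hxi := hxp i (mem_range.1 hi)
        have hyi := hyp i (mem_range.1 hi)
        have h6 := Real.log_le_sub_one_of_pos (div_pos hyi hxi)
        rw [Real.log_div hyi.ne' hxi.ne'] at h6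
        have h7 := mul_le_mul_of_nonneg_left h6 hxi.le
        have h8 : x i * (y i / x i - 1) = y i - x i := by field_simp
        rw [h8] at h7
        exact h7
      rw [sum_sub_distrib] at h5
      linarith

theorem maj2_exists_sorted {α : Type*} [Fintype α] [DecidableEq α] {g : α → ℝ}
    (hg : ∀ a, 0 ≤ g a) :
    ∃ (x : ℕ → ℝ) (c : α → ℕ), Antitone x ∧ (∀ i, 0 ≤ x i) ∧ Function.Injective c ∧
      univ.image c = range (Fintype.card α) ∧ ∀ a, x (c a) = g a := by
  classical
  set n := Fintype.card α with hn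
  let e0 : α ≃ Fin n := Fintype.equivFin α
  let f : Fin n → ℝ := fun i => g (e0.symm i)
  let σ : Equiv.Perm (Fin n) := Tuple.sort (fun i => -f i)
  have hσ : Monotone ((fun i => -f i) ∘ σ) := Tuple.monotone_sort _
  let x : ℕ → ℝ := fun i => if hi : i < n then f (σ ⟨i, hi⟩) else 0
  refine ⟨x, fun a => (σ.symm (e0 a) : ℕ), ?_, ?_, ?_, ?_, ?_⟩
  · intro i j hij
    by_cases hj : j < n
    · have hi : i < n := lt_of_le_of_lt hij hj
      simp only [x, hi, hj, dif_pos]
      have := hσ (show (⟨i, hi⟩ : Fin n) ≤ ⟨j, hj⟩ from hij)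
      simp only [Function.comp_apply] at this
      linarith
    · simp only [x, hj, dif_neg, not_false_eq_true]
      split_ifs
      · exact hg _
      · exact le_rfl
  · intro i
    simp only [x]
    split_ifs
    · exact hg _
    · exact le_rfl
  · intro a b hab
    have h1 : σ.symm (e0 a) = σ.symm (e0 b) := Fin.ext hab
    exact e0.injective (σ.symm.injective h1)
  · ext i
    simp only [mem_image, mem_univ, true_and, mem_range]
    constructor
    · rintro ⟨a, rfl⟩
      exact (σ.symm (e0 a)).2
    · intro hi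
      exact ⟨e0.symm (σ ⟨i, hi⟩), by simp⟩
  · intro a
    simp [x, f]

theorem maj2_prod_le {y : ℕ → ℝ} (hy : Antitone y) (hy0 : ∀ i, 0 ≤ y i) (S : Finset ℕ) :
    ∏ i ∈ S, y i ≤ ∏ i ∈ range S.card, y i := by
  let f := S.orderEmbOfFin rfl
  have h1 : ∀ (i : ℕ) (hi : i < S.card), i ≤ f ⟨i, hi⟩ := by
    intro i
    induction i with
    | zero => intro _; exact Nat.zero_le _
    | succ i ih =>
      intro hi
      have h2 := ih (by omega)
      have h3 : f ⟨i, by omega⟩ < f ⟨i + 1, hi⟩ := f.strictMono (Nat.lt_succ_self i)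
      omega
  have h2 : ∏ i ∈ S, y i = ∏ i : Fin S.card, y (f i) := by
    have : S = univ.map f.toEmbedding := by
      ext i
      simp only [mem_map, mem_univ, true_and]
      have := Finset.range_orderEmbOfFin S rfl
      have h := Set.ext_iff.1 this i
      simp only [Set.mem_range, mem_coe] at h
      exact h.symm
    conv_lhs => rw [this]
    rw [prod_map]
    rfl
  rw [h2, Finset.prod_range]
  exact prod_le_prod (fun i _ => hy0 _) (fun i _ => hy (h1 i i.2))

/-- Sort the values of `g` and of `h` decreasingly (for example with `Tuple.sort` and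
`Fintype.equivFin`) to get sequences `x`, `y`; the product of the first `L` values `x` is the
product of `g` over a set `A` of `L` elements, hence at most the product of `h` over a set `A'` of
`L` elements, which is at most the product of the `L` largest values of `h`.  Then
`sum_le_sum_of_prod_le`. -/
theorem sum_le_of_prod_le {α : Type*} [Fintype α] [DecidableEq α] {g h : α → ℝ}
    (hg : ∀ a, 0 ≤ g a) (hh : ∀ a, 0 ≤ h a)
    (H : ∀ A : Finset α, ∃ A' : Finset α, A'.card = A.card ∧
      ∏ a ∈ A, g a ≤ ∏ a ∈ A', h a) :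
    ∑ a, g a ≤ ∑ a, h a := by
  obtain ⟨x, c, hx, hx0, hc, hcr, hxc⟩ := maj2_exists_sorted hg
  obtain ⟨y, d, hy, hy0, hd, hdr, hyd⟩ := maj2_exists_sorted hh
  have s1 : ∑ a, g a = ∑ i ∈ range (Fintype.card α), x i := by
    rw [← hcr, sum_image (fun a _ b _ hab => hc hab)]
    exact sum_congr rfl fun a _ => (hxc a).symm
  have s2 : ∑ a, h a = ∑ i ∈ range (Fintype.card α), y i := by
    rw [← hdr, sum_image (fun a _ b _ hab => hd hab)]
    exact sum_congr rfl fun a _ => (hyd a).symm
  rw [s1, s2]
  refine sum_le_sum_of_prod_le _ x y hx0 hx hy0 fun L hL => ?_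
  set A : Finset α := univ.filter fun a => c a < L with hA
  have hAi : A.image c = range L := by
    ext i
    simp only [hA, mem_image, mem_filter, mem_univ, true_and, mem_range]
    constructor
    · rintro ⟨a, ha, rfl⟩
      exact ha
    · intro hi
      have : i ∈ univ.image c := by
        rw [hcr, mem_range]; omega
      obtain ⟨a, -, rfl⟩ := mem_image.1 this
      exact ⟨a, hi, rfl⟩
  have hAc : A.card = L := by
    rw [← card_image_of_injective A hc, hAi, card_range]
  obtain ⟨A', hA', hle⟩ := H A
  have p1 : ∏ i ∈ range L, x i = ∏ a ∈ A, g a := by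
    rw [← hAi, prod_image (fun a _ b _ hab => hc hab)]
    exact prod_congr rfl fun a _ => hxc a
  have p2 : ∏ a ∈ A', h a = ∏ i ∈ A'.image d, y i := by
    rw [prod_image (fun a _ b _ hab => hd hab)]
    exact prod_congr rfl fun a _ => (hyd a).symm
  have p3 := maj2_prod_le hy hy0 (A'.image d)
  rw [card_image_of_injective A' hd, hA', hAc] at p3
  rw [p1]
  exact hle.trans (p2.le.trans p3)

end Vale.Agent.P050.T
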