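import Vale.Agent.P050.T.Uncross
import Vale.Agent.P050.T.Major

/-! P050 module ROW. -/

namespace Vale.Agent.P050.T

open Finset

private theorem row_prod {L : ℕ} (f : Bool → ℝ) (P : Fin L → Prop) [DecidablePred P] :
    ∏ l, f (decide (P l)) =
      f true ^ (univ.filter P).card * f false ^ (L - (univ.filter P).card) := by
  have h1 : ∀ l, f (decide (P l)) = if P l then f true else f false := by
    intro l
    by_cases h : P l <;> simp [h]
  rw [Finset.prod_congr rfl fun l _ => h1 l, Finset.prod_ite, Finset.prod_const, Finset.prod_const]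
  congr 2
  have h2 := Finset.card_filter_add_card_filter_not (s := (univ : Finset (Fin L))) P
  rw [Finset.card_univ, Fintype.card_fin] at h2
  omega

private theorem row_card_lt {L d : ℕ} (hd : d ≤ L) :
    (univ.filter fun j : Fin L => (j : ℕ) < d).card = d := by
  have := Fin.card_filter_val_lt (n := L) (m := d)
  rw [this]
  omega

private theorem row_lower {k : ℕ} (P : Fin k → Prop) [DecidablePred P]
    (hP : ∀ i i', i ≤ i' → P i' → P i) (i : Fin k) :
    P i ↔ (i : ℕ) < (univ.filter P).card := by
  constructor
  · intro hi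
    have h1 : (univ.filter fun j : Fin k => (j : ℕ) < (i : ℕ) + 1) ⊆ univ.filter P := by
      intro j hj
      rw [mem_filter] at hj ⊢
      exact ⟨mem_univ _, hP j i (Fin.le_def.2 (by omega)) hi⟩
    have h2 := Finset.card_le_card h1
    rw [row_card_lt (by omega)] at h2
    omega
  · intro hi
    by_contra hn
    have h1 : univ.filter P ⊆ (univ.filter fun j : Fin k => (j : ℕ) < (i : ℕ)) := by
      intro j hj
      rw [mem_filter] at hj ⊢
      refine ⟨mem_univ _, ?_⟩
      by_contra hge
      exact hn (hP i j (Fin.le_def.2 (by omega)) hj.2)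
    have h2 := Finset.card_le_card h1
    rw [row_card_lt (by omega)] at h2
    omega

private theorem row_sum {k : ℕ} (a : Fin k → Bool → ℝ) :
    ∑ S : Finset (Fin k), ∏ i, a i (decide (i ∈ S)) = ∏ i, (a i false + a i true) := by
  have h := Finset.prod_add (fun i => a i true) (fun i => a i false) (univ : Finset (Fin k))
  rw [Finset.powerset_univ] at h
  rw [Finset.prod_congr rfl fun i _ => add_comm (a i false) (a i true), h]
  refine Finset.sum_congr rfl fun S _ => ?_
  have h1 : ∀ i, a i (decide (i ∈ S)) = if i ∈ S then a i true else a i false := by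
    intro i
    by_cases h : i ∈ S <;> simp [h]
  rw [Finset.prod_congr rfl fun i _ => h1 i, Finset.prod_ite]
  congr 1
  · refine Finset.prod_congr ?_ fun _ _ => rfl
    ext i
    simp
  · refine Finset.prod_congr ?_ fun _ _ => rfl
    ext i
    simp

/-- Put `h S = ∏ i, a i (decide (i ∈ S))`; `∑ S, h S = ∏ i, (a i false + a i true)`.  Apply
`sum_le_of_prod_le` to `G` and `h`: let `A` be a family of `L` distinct sets, `s : Fin L → _` an
enumeration.  By `uncross`, `∏ l, G (s l) ≤ ∏ j, G (ost s j) ≤
∏ j, ∏ i, a i (decide (i < (ost s j).card))`.  Let `d i` be the number of `l` with `i ∈ s l`, and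
`π` a permutation of `Fin k` such that `d ∘ π` is antitone.  Then `(ost s j).card` is the number
of `i` with `j < d (π i)`, that is `i < (ost s j).card ↔ j < d (π i)`.  So for every `i` the number
of `j < L` with `i < (ost s j).card` is `d (π i)`, which is also the number of members `S'` of
`A' = {π⁻¹ S | S ∈ A}` with `i ∈ S'`; so the product equals `∏ S' ∈ A', h S'`. -/
theorem one_row {k : ℕ} {G : Finset (Fin k) → ℝ} (hG : LSM G) (a : Fin k → Bool → ℝ)
    (ha : ∀ i b, 0 ≤ a i b)
    (h : ∀ S, G S ≤ ∏ i : Fin k, a i (decide ((i : ℕ) < S.card))) :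
    ∑ S, G S ≤ ∏ i, (a i false + a i true) := by
  rw [← row_sum]
  refine sum_le_of_prod_le hG.1 (fun S => Finset.prod_nonneg fun i _ => ha i _) fun A => ?_
  set L := A.card with hL
  set s : Fin L → Finset (Fin k) := fun l => (A.equivFin.symm l : Finset (Fin k)) with hs
  have hsinj : Function.Injective s := fun l l' hll =>
    A.equivFin.symm.injective (Subtype.ext hll)
  have hprod : ∀ F : Finset (Fin k) → ℝ, ∏ S ∈ A, F S = ∏ l, F (s l) := by
    intro F
    rw [← Finset.prod_coe_sort A F]
    exact (Equiv.prod_comp A.equivFin.symm fun S : A => F S).symm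
  set d : Fin k → ℕ := fun i => (univ.filter fun l => i ∈ s l).card with hd
  have hdL : ∀ i, d i ≤ L := fun i => by
    refine (Finset.card_le_univ _).trans ?_
    rw [Fintype.card_fin]
  set π : Equiv.Perm (Fin k) := Tuple.sort (fun i => OrderDual.toDual (d i)) with hπ
  have hanti : ∀ i i', i ≤ i' → d (π i') ≤ d (π i) := fun i i' hii =>
    Tuple.monotone_sort (fun i => OrderDual.toDual (d i)) hii
  have hcard : ∀ j : ℕ, (ost s j).card = (univ.filter fun i => j < d (π i)).card := by
    intro j
    have e : ost s j = (univ.filter fun i => j < d (π i)).map π.toEmbedding := by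
      ext x
      rw [ost, mem_filter, Finset.mem_map]
      constructor
      · rintro ⟨-, hx⟩
        refine ⟨π.symm x, ?_, by simp⟩
        rw [mem_filter]
        refine ⟨mem_univ _, ?_⟩
        rw [Equiv.apply_symm_apply]
        exact hx
      · rintro ⟨y, hy, rfl⟩
        rw [mem_filter] at hy
        exact ⟨mem_univ _, hy.2⟩
    rw [e, Finset.card_map]
  have hiff : ∀ (j : ℕ) (i : Fin k), (i : ℕ) < (ost s j).card ↔ j < d (π i) := by
    intro j i
    rw [hcard j]
    exact (row_lower (fun i => j < d (π i)) (fun i i' hii hj => lt_of_lt_of_le hj (hanti i i' hii))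
      i).symm
  refine ⟨A.map ⟨fun S => S.map π.symm.toEmbedding, Finset.map_injective _⟩, by
    rw [Finset.card_map], ?_⟩
  rw [Finset.prod_map, hprod, hprod]
  calc ∏ l, G (s l) ≤ ∏ j : Fin L, G (ost s j) := uncross hG s
    _ ≤ ∏ j : Fin L, ∏ i : Fin k, a i (decide ((i : ℕ) < (ost s j).card)) :=
        Finset.prod_le_prod (fun j _ => hG.1 _) fun j _ => h _
    _ = ∏ i : Fin k, ∏ j : Fin L, a i (decide ((j : ℕ) < d (π i))) := by
        rw [Finset.prod_comm]
        refine Finset.prod_congr rfl fun i _ => Finset.prod_congr rfl fun j _ => ?_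
        congr 1
        rw [decide_eq_decide]
        exact hiff j i
    _ = ∏ i : Fin k, ∏ l : Fin L, a i (decide (π i ∈ s l)) := by
        refine Finset.prod_congr rfl fun i _ => ?_
        rw [row_prod (a i), row_prod (a i), row_card_lt (hdL _)]
    _ = ∏ l : Fin L, ∏ i : Fin k, a i (decide (π i ∈ s l)) := Finset.prod_comm
    _ ≤ _ := by
        refine le_of_eq (Finset.prod_congr rfl fun l _ => Finset.prod_congr rfl fun i _ => ?_)
        congr 1
        rw [decide_eq_decide]
        simp only [Function.Embedding.coeFn_mk, Finset.mem_map_equiv, Equiv.symm_symm]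

end Vale.Agent.P050.T
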