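import Vale.Agent.P050.T.Limit

/-! P050: final forms for bipartite graphs given by an edge set, and for simple graphs. -/

universe u

namespace Vale.Agent.P050.T

open Finset

theorem sum_restrict {A : Type*} [Fintype A] [DecidableEq A] (p : A → Prop) [DecidablePred p]
    {N : ℕ} (F : ({a // p a} → Fin N) → ℝ) :
    ∑ x : A → Fin N, F (fun a => x a) =
      (N : ℝ) ^ (Fintype.card {a // ¬ p a}) * ∑ x' : {a // p a} → Fin N, F x' := by
  rw [← (Equiv.piEquivPiSubtypeProd p (fun _ => Fin N)).symm.sum_comp, Fintype.sum_prod_type]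
  have h1 : ∀ (x' : {a // p a} → Fin N) (x'' : {a // ¬ p a} → Fin N),
      (fun a : {a // p a} => (Equiv.piEquivPiSubtypeProd p (fun _ => Fin N)).symm (x', x'') a)
        = x' := by
    intro x' x''
    funext a
    simp [Equiv.piEquivPiSubtypeProd, a.2]
  simp only [h1]
  rw [Finset.mul_sum]
  refine Finset.sum_congr rfl fun x' _ => ?_
  rw [Finset.sum_const, Finset.card_univ, Fintype.card_fun, Fintype.card_fin, nsmul_eq_mul]
  push_cast
  rfl

theorem card_split {A : Type*} [Fintype A] [DecidableEq A] (p : A → Prop) [DecidablePred p] :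
    Fintype.card A = Fintype.card {a // ¬ p a} + Fintype.card {a // p a} := by
  have := Fintype.card_subtype_compl p
  have h2 := Fintype.card_subtype_le p
  omega

/-- Sidorenko's inequality for all bipartite graphs (given by the edge set `E ⊆ A × B`) and all
totally positive kernels of order two. -/
theorem bigraph_tp2 {A B : Type*} [Fintype A] [DecidableEq A] [Fintype B] [DecidableEq B]
    (E : Finset (A × B)) {N M : ℕ} (hN : 0 < N) (hM : 0 < M) {W : Fin N → Fin M → ℝ}
    (hW : TP2 W) :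
    ((∑ x, ∑ y, W x y) / ((N : ℝ) * M)) ^ E.card ≤
      (∑ x : A → Fin N, ∑ y : B → Fin M, ∏ e ∈ E, W (x e.1) (y e.2)) /
        ((N : ℝ) ^ Fintype.card A * (M : ℝ) ^ Fintype.card B) := by
  classical
  have hN' : (0 : ℝ) < N := by exact_mod_cast hN
  have hM' : (0 : ℝ) < M := by exact_mod_cast hM
  let p : A → Prop := fun a => ∃ b, (a, b) ∈ E
  let r : B → Prop := fun b => ∃ a, (a, b) ∈ E
  let α : E → {a // p a} := fun e => ⟨e.1.1, e.1.2, e.2⟩
  let β : E → {b // r b} := fun e => ⟨e.1.2, e.1.1, e.2⟩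
  have hα : Function.Surjective α := by
    rintro ⟨a, b, h⟩
    exact ⟨⟨(a, b), h⟩, rfl⟩
  have hβ : Function.Surjective β := by
    rintro ⟨b, a, h⟩
    exact ⟨⟨(a, b), h⟩, rfl⟩
  have key := tp2_sidorenko hW hN hM α β hα hβ
  have hprod : ∀ (x : A → Fin N) (y : B → Fin M), ∏ e ∈ E, W (x e.1) (y e.2) =
      ∏ e : E, W ((fun a : {a // p a} => x a) (α e)) ((fun b : {b // r b} => y b) (β e)) := by
    intro x y
    rw [← Finset.prod_coe_sort E]
  have hsum : ∑ x : A → Fin N, ∑ y : B → Fin M, ∏ e ∈ E, W (x e.1) (y e.2) =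
      (N : ℝ) ^ (Fintype.card {a // ¬ p a}) * (M : ℝ) ^ (Fintype.card {b // ¬ r b}) *
        ∑ x : {a // p a} → Fin N, ∑ y : {b // r b} → Fin M, ∏ e, W (x (α e)) (y (β e)) := by
    simp only [hprod]
    have h1 : ∀ x : A → Fin N, ∑ y : B → Fin M,
        ∏ e : E, W ((fun a : {a // p a} => x a) (α e)) ((fun b : {b // r b} => y b) (β e)) =
        (fun x' : {a // p a} → Fin N => (M : ℝ) ^ (Fintype.card {b // ¬ r b}) *
          ∑ y' : {b // r b} → Fin M, ∏ e : E, W (x' (α e)) (y' (β e))) (fun a => x a) := by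
      intro x
      exact sum_restrict r (fun y' => ∏ e : E, W (x (α e)) (y' (β e)))
    rw [Finset.sum_congr rfl fun x _ => h1 x]
    rw [sum_restrict p (fun x' : {a // p a} → Fin N => (M : ℝ) ^ (Fintype.card {b // ¬ r b}) *
          ∑ y' : {b // r b} → Fin M, ∏ e : E, W (x' (α e)) (y' (β e))), ← Finset.mul_sum]
    ring
  rw [hsum, le_div_iff₀ (by positivity), card_split p, card_split r, Fintype.card_coe] at *
  calc ((∑ x, ∑ y, W x y) / ((N : ℝ) * M)) ^ E.card *
        ((N : ℝ) ^ (Fintype.card {a // ¬ p a} + Fintype.card {a // p a}) *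
          (M : ℝ) ^ (Fintype.card {b // ¬ r b} + Fintype.card {b // r b}))
      = (N : ℝ) ^ (Fintype.card {a // ¬ p a}) * (M : ℝ) ^ (Fintype.card {b // ¬ r b}) *
        ((N : ℝ) ^ Fintype.card {a // p a} * (M : ℝ) ^ Fintype.card {b // r b} *
          ((∑ x, ∑ y, W x y) / ((N : ℝ) * M)) ^ E.card) := by
        rw [pow_add, pow_add]; ring
    _ ≤ _ := mul_le_mul_of_nonneg_left key (by positivity)

/-- Reverse totally positive of order two: nonnegative entries and nonpositive `2 × 2` minors. -/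
def RR2 {N M : ℕ} (W : Fin N → Fin M → ℝ) : Prop :=
  (∀ x y, 0 ≤ W x y) ∧
    ∀ x x' y y', x ≤ x' → y ≤ y' → W x y * W x' y' ≤ W x y' * W x' y

theorem bigraph_rr2 {A B : Type*} [Fintype A] [DecidableEq A] [Fintype B] [DecidableEq B]
    (E : Finset (A × B)) {N M : ℕ} (hN : 0 < N) (hM : 0 < M) {W : Fin N → Fin M → ℝ}
    (hW : RR2 W) :
    ((∑ x, ∑ y, W x y) / ((N : ℝ) * M)) ^ E.card ≤
      (∑ x : A → Fin N, ∑ y : B → Fin M, ∏ e ∈ E, W (x e.1) (y e.2)) /
        ((N : ℝ) ^ Fintype.card A * (M : ℝ) ^ Fintype.card B) := by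
  have hW' : TP2 (fun (x : Fin N) (y : Fin M) => W x (Fin.rev y)) := by
    refine ⟨fun x y => hW.1 _ _, fun x x' y y' hx hy => ?_⟩
    exact hW.2 x x' (Fin.rev y') (Fin.rev y) hx (Fin.rev_le_rev.2 hy)
  have key := bigraph_tp2 E hN hM hW'
  have h1 : ∀ x : Fin N, ∑ y : Fin M, W x (Fin.rev y) = ∑ y : Fin M, W x y := fun x =>
    Equiv.sum_comp Fin.revPerm (fun y => W x y)
  have h2 : ∀ x : A → Fin N, ∑ y : B → Fin M, ∏ e ∈ E, W (x e.1) (Fin.rev (y e.2)) =
      ∑ y : B → Fin M, ∏ e ∈ E, W (x e.1) (y e.2) := fun x =>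
    Equiv.sum_comp (Equiv.arrowCongr (Equiv.refl B) Fin.revPerm)
      (fun y : B → Fin M => ∏ e ∈ E, W (x e.1) (y e.2))
  simp only [h1, h2] at key
  exact key

/-- Sidorenko's inequality for simple bipartite graphs and symmetric kernels, from the form for
bigraphs. -/
theorem graph_of_bigraph {V : Type u} [Fintype V] [DecidableEq V] (H : SimpleGraph V)
    [DecidableRel H.Adj] (hH : H.Colorable 2) {N : ℕ} (hN : 0 < N) (W : Sym2 (Fin N) → ℝ)
    (key : ∀ (A B : Type u) [Fintype A] [DecidableEq A] [Fintype B] [DecidableEq B]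
      (E : Finset (A × B)),
      ((∑ x : Fin N, ∑ y : Fin N, W s(x, y)) / ((N : ℝ) * N)) ^ E.card ≤
      (∑ x : A → Fin N, ∑ y : B → Fin N, ∏ e ∈ E, W s(x e.1, y e.2)) /
        ((N : ℝ) ^ Fintype.card A * (N : ℝ) ^ Fintype.card B)) :
    ((∑ x : Fin N, ∑ y : Fin N, W s(x, y)) / (N : ℝ) ^ 2) ^ H.edgeFinset.card ≤
      (∑ x : V → Fin N, ∏ e ∈ H.edgeFinset, W (e.map x)) / (N : ℝ) ^ Fintype.card V := by
  classical
  obtain ⟨c⟩ := hH
  let p : V → Prop := fun v => c v = 0
  let E : Finset ({v // p v} × {v // ¬ p v}) :=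
    univ.filter (fun e => H.Adj (e.1 : V) (e.2 : V))
  have k := key {v // p v} {v // ¬ p v} E
  have hinj : Set.InjOn (fun e : {v // p v} × {v // ¬ p v} => s((e.1 : V), (e.2 : V))) E := by
    rintro ⟨⟨a, ha⟩, ⟨b, hb⟩⟩ - ⟨⟨a', ha'⟩, ⟨b', hb'⟩⟩ - h
    simp only [Sym2.eq_iff] at h
    rcases h with ⟨h1, h2⟩ | ⟨h1, h2⟩
    · subst h1; subst h2; rfl
    · exact absurd (h1 ▸ ha) hb'
  have himg : H.edgeFinset = E.image (fun e => s((e.1 : V), (e.2 : V))) := by
    ext e
    induction e using Sym2.ind with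
    | _ u v =>
      rw [SimpleGraph.mem_edgeFinset, SimpleGraph.mem_edgeSet, Finset.mem_image]
      constructor
      · intro h
        have hne : c u ≠ c v := c.valid h
        by_cases hu : c u = 0
        · have hv : ¬ c v = 0 := fun hv => hne (hu.trans hv.symm)
          exact ⟨(⟨u, hu⟩, ⟨v, hv⟩), by simpa [E] using h, rfl⟩
        · have hv : c v = 0 := by
            have h1 : ∀ a b : Fin 2, a ≠ 0 → a ≠ b → b = 0 := by decide
            exact h1 _ _ hu hne
          exact ⟨(⟨v, hv⟩, ⟨u, hu⟩), by simpa [E] using h.symm, Sym2.eq_swap⟩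
      · rintro ⟨⟨⟨a, ha⟩, ⟨b, hb⟩⟩, hab, h⟩
        have hab' : H.Adj a b := by simpa [E] using hab
        simp only [Sym2.eq_iff] at h
        rcases h with ⟨rfl, rfl⟩ | ⟨rfl, rfl⟩
        · exact hab'
        · exact hab'.symm
  have hcard : H.edgeFinset.card = E.card := by
    rw [himg, Finset.card_image_of_injOn hinj]
  have hprod : ∀ z : V → Fin N, ∏ e ∈ H.edgeFinset, W (e.map z) =
      ∏ e ∈ E, W s(z e.1, z e.2) := by
    intro z
    rw [himg, Finset.prod_image hinj]
    rfl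
  have hsum : ∑ z : V → Fin N, ∏ e ∈ H.edgeFinset, W (e.map z) =
      ∑ x : {v // p v} → Fin N, ∑ y : {v // ¬ p v} → Fin N, ∏ e ∈ E, W s(x e.1, y e.2) := by
    rw [← (Equiv.piEquivPiSubtypeProd p (fun _ => Fin N)).symm.sum_comp, Fintype.sum_prod_type]
    refine Finset.sum_congr rfl fun x _ => Finset.sum_congr rfl fun y _ => ?_
    rw [hprod]
    refine Finset.prod_congr rfl fun e _ => ?_
    have h1 : (Equiv.piEquivPiSubtypeProd p (fun _ => Fin N)).symm (x, y) (e.1 : V) = x e.1 := by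
      simp [Equiv.piEquivPiSubtypeProd, e.1.2]
    have h2 : (Equiv.piEquivPiSubtypeProd p (fun _ => Fin N)).symm (x, y) (e.2 : V) = y e.2 := by
      simp [Equiv.piEquivPiSubtypeProd, e.2.2]
    rw [h1, h2]
  rw [hcard, hsum, card_split p, pow_add, mul_comm ((N : ℝ) ^ Fintype.card {a // ¬ p a}), pow_two]
  exact k

/-- Sidorenko's inequality for every bipartite graph and every symmetric kernel on `N` equally
likely points with all `2 × 2` minors of the same sign. -/
theorem graph_sidorenko {V : Type u} [Fintype V] [DecidableEq V] (H : SimpleGraph V)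
    [DecidableRel H.Adj] (hH : H.Colorable 2) {N : ℕ} (hN : 0 < N) (W : Sym2 (Fin N) → ℝ)
    (hW : TP2 (fun x y => W s(x, y)) ∨ RR2 (fun x y => W s(x, y))) :
    ((∑ x : Fin N, ∑ y : Fin N, W s(x, y)) / (N : ℝ) ^ 2) ^ H.edgeFinset.card ≤
      (∑ x : V → Fin N, ∏ e ∈ H.edgeFinset, W (e.map x)) / (N : ℝ) ^ Fintype.card V := by
  refine graph_of_bigraph H hH hN W ?_
  intro A B _ _ _ _ E
  rcases hW with hW | hW
  · exact bigraph_tp2 E hN hN hW
  · exact bigraph_rr2 E hN hN hW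

end Vale.Agent.P050.T
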