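import Vale.Agent.P050.T.MDefs
import Vale.Agent.P050.T.Res

/-! P050 module SAMP. -/

namespace Vale.Agent.P050.T

open Finset

/-- Sort both samples (`Tuple.sort`, `Tuple.monotone_sort`); the sorted matrix is `TP2`, apply
`bigraph_tp2` with `N = M = n`; the sums over all indices do not change under permutations of
`Fin n` (`Equiv.sum_comp`, `Equiv.arrowCongr`). -/
theorem sample_ineq {α β : Type*} [LinearOrder α] [LinearOrder β] {A B : Type*} [Fintype A]
    [DecidableEq A] [Fintype B] [DecidableEq B] (E : Finset (A × B)) {n : ℕ} (hn : 0 < n)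
    {W : α → β → ℝ} (hW : TotallyPositive W) (x : Fin n → α) (y : Fin n → β) :
    ((∑ i, ∑ j, W (x i) (y j)) / ((n : ℝ) * n)) ^ E.card ≤
      (∑ φ : A → Fin n, ∑ ψ : B → Fin n, ∏ e ∈ E, W (x (φ e.1)) (y (ψ e.2))) /
        ((n : ℝ) ^ Fintype.card A * (n : ℝ) ^ Fintype.card B) := by
  classical
  have hmx : Monotone (x ∘ Tuple.sort x) := Tuple.monotone_sort x
  have hmy : Monotone (y ∘ Tuple.sort y) := Tuple.monotone_sort y
  have hW' : TP2 (fun (i : Fin n) (j : Fin n) => W (x (Tuple.sort x i)) (y (Tuple.sort y j))) := by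
    refine ⟨fun i j => hW.1 _ _, fun i i' j j' hi hj => ?_⟩
    exact hW.2 _ _ _ _ (hmx hi) (hmy hj)
  have key := bigraph_tp2 E hn hn hW'
  have h1 : ∑ i : Fin n, ∑ j : Fin n, W (x (Tuple.sort x i)) (y (Tuple.sort y j)) =
      ∑ i : Fin n, ∑ j : Fin n, W (x i) (y j) := by
    rw [Equiv.sum_comp (Tuple.sort x)
      (fun i => ∑ j : Fin n, W (x i) (y (Tuple.sort y j)))]
    refine Finset.sum_congr rfl fun i _ => ?_
    exact Equiv.sum_comp (Tuple.sort y) (fun j => W (x i) (y j))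
  have h2 : ∑ φ : A → Fin n, ∑ ψ : B → Fin n,
        ∏ e ∈ E, W (x (Tuple.sort x (φ e.1))) (y (Tuple.sort y (ψ e.2))) =
      ∑ φ : A → Fin n, ∑ ψ : B → Fin n, ∏ e ∈ E, W (x (φ e.1)) (y (ψ e.2)) := by
    have h3 := Equiv.sum_comp (Equiv.arrowCongr (Equiv.refl A) (Tuple.sort x))
      (fun φ : A → Fin n => ∑ ψ : B → Fin n,
        ∏ e ∈ E, W (x (φ e.1)) (y (Tuple.sort y (ψ e.2))))
    refine Eq.trans ?_ (h3.trans ?_)
    · rfl
    · refine Finset.sum_congr rfl fun φ _ => ?_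
      exact Equiv.sum_comp (Equiv.arrowCongr (Equiv.refl B) (Tuple.sort y))
        (fun ψ : B → Fin n => ∏ e ∈ E, W (x (φ e.1)) (y (ψ e.2)))
  simp only [h1, h2] at key
  exact key

end Vale.Agent.P050.T
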