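import Vale.Agent.P050.T.Defs

/-! P050 module TYP: words with given letter counts. -/

namespace Vale.Agent.P050.T

open Finset

variable {N M k : ℕ}

/-- words with the same letter counts differ by a permutation of the positions -/
theorem exists_perm_of_cnt_eq (x x' : Fin k → Fin N) (h : cnt x = cnt x') :
    ∃ τ : Equiv.Perm (Fin k), ∀ i, x' i = x (τ i) := by
  have hc : ∀ c : Fin N, Nonempty ({i : Fin k // x' i = c} ≃ {i : Fin k // x i = c}) := by
    intro c
    refine ⟨Fintype.equivOfCardEq ?_⟩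
    rw [Fintype.card_subtype, Fintype.card_subtype]
    exact (congrFun h c).symm
  refine ⟨Equiv.ofFiberEquiv (f := x') (g := x) fun c => (hc c).some, fun i => ?_⟩
  exact (Equiv.ofFiberEquiv_map (fun c => (hc c).some) i).symm

theorem TYP1_pow (W : Fin N → Fin M → ℝ) :
    (∑ x, ∑ y, W x y) ^ k =
      ∑ q : (Fin k → Fin N) × (Fin k → Fin M), ∏ i, W (q.1 i) (q.2 i) := by
  have h1 : ∑ x, ∑ y, W x y = ∑ p : Fin N × Fin M, W p.1 p.2 :=
    (Fintype.sum_prod_type (fun p : Fin N × Fin M => W p.1 p.2)).symm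
  rw [h1, Finset.sum_pow', Fintype.piFinset_univ,
    ← Equiv.sum_comp (Equiv.arrowProdEquivProdArrow (Fin k) (fun _ => Fin N) (fun _ => Fin M))]
  rfl

/-- `cnt` takes at most `(k + 1) ^ N` values; pigeonhole for the sum
`∑ x, ∑ y, ∏ i, W (x i) (y i) = (∑ x, ∑ y, W x y) ^ k`. -/
theorem exists_types {W : Fin N → Fin M → ℝ} (hW : ∀ x y, 0 ≤ W x y) :
    ∃ (m : Fin N → ℕ) (n : Fin M → ℕ),
      (∑ x, ∑ y, W x y) ^ k / ((k : ℝ) + 1) ^ (N + M) ≤
        ∑ x ∈ univ.filter (fun x : Fin k → Fin N => cnt x = m),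
          ∑ y ∈ univ.filter (fun y : Fin k → Fin M => cnt y = n), ∏ i, W (x i) (y i) := by
  have hcnt : ∀ {L : ℕ} (x : Fin k → Fin L),
      cnt x ∈ Fintype.piFinset fun _ : Fin L => Finset.range (k + 1) := by
    intro L x
    rw [Fintype.mem_piFinset]
    intro a
    rw [Finset.mem_range, Nat.lt_succ_iff]
    refine (Finset.card_filter_le _ _).trans ?_
    rw [Finset.card_univ, Fintype.card_fin]
  have hk : (0 : ℝ) < ((k : ℝ) + 1) ^ (N + M) := by positivity
  obtain ⟨⟨m, n⟩, -, hmn⟩ := Finset.exists_le_sum_fiber_of_maps_to_of_nsmul_le_sum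
    (s := (univ : Finset ((Fin k → Fin N) × (Fin k → Fin M))))
    (t := (Fintype.piFinset fun _ : Fin N => Finset.range (k + 1)) ×ˢ
      (Fintype.piFinset fun _ : Fin M => Finset.range (k + 1)))
    (f := fun q => (cnt q.1, cnt q.2)) (w := fun q => ∏ i, W (q.1 i) (q.2 i))
    (b := (∑ x, ∑ y, W x y) ^ k / ((k : ℝ) + 1) ^ (N + M))
    (fun q _ => Finset.mem_product.2 ⟨hcnt q.1, hcnt q.2⟩)
    ⟨(fun _ => 0, fun _ => 0), by simp⟩
    (by
      rw [← TYP1_pow, Finset.card_product, Fintype.card_piFinset, Fintype.card_piFinset]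
      simp only [Finset.card_range, Finset.prod_const, Finset.card_univ, Fintype.card_fin]
      rw [← pow_add, nsmul_eq_mul]
      push_cast
      rw [mul_div_cancel₀ _ hk.ne'])
  refine ⟨m, n, hmn.trans (le_of_eq ?_)⟩
  rw [← Finset.sum_product' (s := univ.filter (fun x : Fin k → Fin N => cnt x = m))
    (t := univ.filter (fun y : Fin k → Fin M => cnt y = n))
    (f := fun x y => ∏ i, W (x i) (y i))]
  refine Finset.sum_congr ?_ fun _ _ => rfl
  ext q
  simp only [Finset.mem_filter, Finset.mem_univ, true_and, Finset.mem_product, Prod.mk.injEq]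

private theorem typ2_cnt_comp (y : Fin k → Fin M) (σ : Equiv.Perm (Fin k)) :
    cnt (fun i => y (σ i)) = cnt y := by
  funext a
  unfold cnt
  refine Finset.card_bij (fun i _ => σ i) ?_ ?_ ?_
  · intro i hi
    simpa using hi
  · intro i _ j _ h
    exact σ.injective h
  · intro j hj
    refine ⟨σ.symm j, ?_, by simp⟩
    simpa using hj

/-- the sum over all permutations does not depend on the words -/
private theorem typ2_inv (W : Fin N → Fin M → ℝ) (x : Fin k → Fin N) (y : Fin k → Fin M)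
    (τ ρ : Equiv.Perm (Fin k)) :
    ∑ σ : Equiv.Perm (Fin k), ∏ i, W (x (τ i)) (y (ρ (σ i)))
      = ∑ σ : Equiv.Perm (Fin k), ∏ i, W (x i) (y (σ i)) := by
  refine Fintype.sum_equiv (((Equiv.mulLeft ρ).trans (Equiv.mulRight τ⁻¹))) _ _ fun σ => ?_
  rw [← Equiv.prod_comp τ (fun i => W (x i)
    (y ((((Equiv.mulLeft ρ).trans (Equiv.mulRight τ⁻¹)) σ : Equiv.Perm (Fin k)) i)))]
  refine Finset.prod_congr rfl fun i _ => ?_
  simp [Equiv.Perm.mul_apply]

/-- For words `x`, `y` of types `m`, `n` the sum over all permutations does not depend on the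
words (`exists_perm_of_cnt_eq` and reindexing), so it can be computed by summing over all words of
these types. -/
theorem sum_perm (W : Fin N → Fin M → ℝ) (x₀ : Fin k → Fin N) (y₀ : Fin k → Fin M) :
    ((univ.filter (fun x : Fin k → Fin N => cnt x = cnt x₀)).card : ℝ) *
      ((univ.filter (fun y : Fin k → Fin M => cnt y = cnt y₀)).card : ℝ) *
      ∑ σ : Equiv.Perm (Fin k), ∏ i, W (x₀ i) (y₀ (σ i)) =
    (k.factorial : ℝ) * ∑ x ∈ univ.filter (fun x : Fin k → Fin N => cnt x = cnt x₀),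
      ∑ y ∈ univ.filter (fun y : Fin k → Fin M => cnt y = cnt y₀), ∏ i, W (x i) (y i) := by
  have h1 : ∀ x ∈ univ.filter (fun x : Fin k → Fin N => cnt x = cnt x₀),
      ∀ y ∈ univ.filter (fun y : Fin k → Fin M => cnt y = cnt y₀),
      ∑ σ : Equiv.Perm (Fin k), ∏ i, W (x i) (y (σ i))
        = ∑ σ : Equiv.Perm (Fin k), ∏ i, W (x₀ i) (y₀ (σ i)) := by
    intro x hx y hy
    obtain ⟨τ, hτ⟩ := exists_perm_of_cnt_eq x₀ x (Finset.mem_filter.mp hx).2.symm
    obtain ⟨ρ, hρ⟩ := exists_perm_of_cnt_eq y₀ y (Finset.mem_filter.mp hy).2.symm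
    rw [← typ2_inv W x₀ y₀ τ ρ]
    exact Finset.sum_congr rfl fun σ _ => Finset.prod_congr rfl fun i _ => by rw [hτ, hρ]
  have h2 : ((univ.filter (fun x : Fin k → Fin N => cnt x = cnt x₀)).card : ℝ) *
      ((univ.filter (fun y : Fin k → Fin M => cnt y = cnt y₀)).card : ℝ) *
      ∑ σ : Equiv.Perm (Fin k), ∏ i, W (x₀ i) (y₀ (σ i))
      = ∑ x ∈ univ.filter (fun x : Fin k → Fin N => cnt x = cnt x₀),
        ∑ y ∈ univ.filter (fun y : Fin k → Fin M => cnt y = cnt y₀),
          ∑ σ : Equiv.Perm (Fin k), ∏ i, W (x i) (y (σ i)) := by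
    rw [Finset.sum_congr rfl fun x hx => Finset.sum_congr rfl fun y hy => h1 x hx y hy]
    simp only [Finset.sum_const, nsmul_eq_mul]
    ring
  rw [h2]
  have h3 : ∀ x : Fin k → Fin N, ∑ y ∈ univ.filter (fun y : Fin k → Fin M => cnt y = cnt y₀),
          ∑ σ : Equiv.Perm (Fin k), ∏ i, W (x i) (y (σ i))
      = (k.factorial : ℝ) *
        ∑ y ∈ univ.filter (fun y : Fin k → Fin M => cnt y = cnt y₀), ∏ i, W (x i) (y i) := by
    intro x
    rw [Finset.sum_comm]
    have h4 : ∀ σ : Equiv.Perm (Fin k),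
        ∑ y ∈ univ.filter (fun y : Fin k → Fin M => cnt y = cnt y₀), ∏ i, W (x i) (y (σ i))
        = ∑ y ∈ univ.filter (fun y : Fin k → Fin M => cnt y = cnt y₀), ∏ i, W (x i) (y i) := by
      intro σ
      refine Finset.sum_bij' (fun y _ => fun i => y (σ i)) (fun y _ => fun i => y (σ.symm i))
        ?_ ?_ ?_ ?_ ?_
      · intro y hy
        rw [Finset.mem_filter] at hy ⊢
        exact ⟨Finset.mem_univ _, (typ2_cnt_comp y σ).trans hy.2⟩
      · intro y hy
        rw [Finset.mem_filter] at hy ⊢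
        exact ⟨Finset.mem_univ _, (typ2_cnt_comp y σ.symm).trans hy.2⟩
      · intro y _
        funext i
        simp
      · intro y _
        funext i
        simp
      · intro y _
        rfl
    rw [Finset.sum_congr rfl fun σ _ => h4 σ, Finset.sum_const, Finset.card_univ,
      Fintype.card_perm, Fintype.card_fin, nsmul_eq_mul]
  rw [Finset.sum_congr rfl fun x _ => h3 x, Finset.mul_sum]

end Vale.Agent.P050.T
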