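import Vale.Agent.P050.T.Defs

/-! P050 module UNC. -/

namespace Vale.Agent.P050.T

open Finset

/-- Induction on `L`.  For the step use the insertion inequality: if `C 0 ⊇ C 1 ⊇ … ⊇ C (L-1)` and
`S` is a set then `(∏ j, G (C j)) * G S ≤ ∏ j ≤ L, G (D j)` with `D 0 = C 0 ∪ S`,
`D j = C j ∪ (C (j-1) ∩ S)`, `D L = C (L-1) ∩ S` (induction on `L`: first
`G (C 0) * G S ≤ G (C 0 ∪ S) * G (C 0 ∩ S)`, then insert `C 0 ∩ S` into the rest), and
`ost s j = D j` for `C j = ost (init s) j`, `S = s (last L)`. -/
theorem uncross {ι : Type*} [Fintype ι] [DecidableEq ι] {G : Finset ι → ℝ} (hG : LSM G) {L : ℕ}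
    (s : Fin L → Finset ι) : ∏ l, G (s l) ≤ ∏ j : Fin L, G (ost s j) := by
  induction L with
  | zero => simp
  | succ L ih =>
    set s' : Fin L → Finset ι := fun l => s l.castSucc with hs'
    set S : Finset ι := s (Fin.last L) with hS
    set c : ι → ℕ := fun i => (univ.filter fun l => i ∈ s' l).card with hc
    have hcount : ∀ i, (univ.filter fun l => i ∈ s l).card = c i + if i ∈ S then 1 else 0 := by
      intro i
      rw [Finset.card_filter, Fin.sum_univ_castSucc, hc]
      simp only [Finset.card_filter]
      rfl
    have hcle : ∀ i, c i ≤ L := by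
      intro i
      refine (Finset.card_filter_le _ _).trans ?_
      simp
    set T : ℕ → Finset ι := fun j => S.filter fun i => j ≤ c i with hT
    have hT0 : T 0 = S := by
      ext i
      simp [hT]
    have hTs : ∀ j, ost s' j ⊓ T j = T (j + 1) := by
      intro j
      ext i
      simp only [ost, hT, Finset.inf_eq_inter, Finset.mem_inter, Finset.mem_filter,
        Finset.mem_univ, true_and]
      change (j < c i ∧ i ∈ S ∧ j ≤ c i) ↔ (i ∈ S ∧ j + 1 ≤ c i)
      constructor
      · rintro ⟨h1, h2, h3⟩
        exact ⟨h2, h1⟩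
      · rintro ⟨h1, h2⟩
        exact ⟨h2, h1, by omega⟩
    have hD : ∀ j, ost s' j ⊔ T j = ost s j := by
      intro j
      ext i
      simp only [ost, hT, Finset.sup_eq_union, Finset.mem_union, Finset.mem_filter,
        Finset.mem_univ, true_and, hcount]
      change (j < c i ∨ i ∈ S ∧ j ≤ c i) ↔ _
      by_cases hi : i ∈ S
      · simp only [hi, true_and, if_true]
        omega
      · simp only [hi, false_and, or_false, if_false, add_zero]
    have hlast : T L = ost s L := by
      rw [← hD L]
      have : ost s' L = ∅ := by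
        ext i
        simp only [ost, Finset.mem_filter, Finset.mem_univ, true_and, Finset.notMem_empty,
          iff_false, not_lt]
        exact hcle i
      rw [this, Finset.sup_eq_union, Finset.empty_union]
    have htel : ∀ m : ℕ, (∏ j ∈ range m, G (ost s' j)) * G S
        ≤ (∏ j ∈ range m, G (ost s j)) * G (T m) := by
      intro m
      induction m with
      | zero => rw [hT0, Finset.prod_range_zero, Finset.prod_range_zero]
      | succ m ihm =>
        rw [Finset.prod_range_succ, Finset.prod_range_succ]
        have h1 := hG.2 (ost s' m) (T m)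
        rw [hTs, hD] at h1
        have h2 : 0 ≤ ∏ j ∈ range m, G (ost s j) := Finset.prod_nonneg fun j _ => hG.1 _
        calc (∏ j ∈ range m, G (ost s' j)) * G (ost s' m) * G S
            = ((∏ j ∈ range m, G (ost s' j)) * G S) * G (ost s' m) := by ring
          _ ≤ ((∏ j ∈ range m, G (ost s j)) * G (T m)) * G (ost s' m) :=
              mul_le_mul_of_nonneg_right ihm (hG.1 _)
          _ = (∏ j ∈ range m, G (ost s j)) * (G (ost s' m) * G (T m)) := by ring
          _ ≤ (∏ j ∈ range m, G (ost s j)) * (G (T (m + 1)) * G (ost s m)) :=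
              mul_le_mul_of_nonneg_left h1 h2
          _ = _ := by ring
    rw [Fin.prod_univ_castSucc]
    have h3 := ih s'
    have h4 : (∏ j : Fin L, G (ost s' j)) * G S ≤ (∏ j : Fin L, G (ost s j)) * G (T L) := by
      have := htel L
      rwa [Finset.prod_range, Finset.prod_range] at this
    calc (∏ l : Fin L, G (s l.castSucc)) * G (s (Fin.last L))
        ≤ (∏ j : Fin L, G (ost s' j)) * G S := mul_le_mul_of_nonneg_right h3 (hG.1 _)
      _ ≤ (∏ j : Fin L, G (ost s j)) * G (T L) := h4
      _ = ∏ j : Fin (L + 1), G (ost s j) := by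
          rw [Fin.prod_univ_castSucc, hlast]
          rfl

/-- The same for a log-supermodular function on pairs of bit sequences: apply `uncross` to
`ι ⊕ κ` (a finset of `ι ⊕ κ` is a pair of bit sequences). -/
theorem uncrossB {ι κ : Type*} [Fintype ι] [DecidableEq ι] [Fintype κ] [DecidableEq κ]
    {G : (ι → Bool) × (κ → Bool) → ℝ} (hG : LSM G) {L : ℕ} (p : Fin L → ι → Bool)
    (r : Fin L → κ → Bool) :
    ∏ l, G (p l, r l) ≤ ∏ j : Fin L, G (ostB p j, ostB r j) := by
  set dec : Finset (ι ⊕ κ) → (ι → Bool) × (κ → Bool) := fun A =>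
    (fun i => decide (Sum.inl i ∈ A), fun j => decide (Sum.inr j ∈ A)) with hdec
  have hH : LSM (fun A => G (dec A)) := by
    refine ⟨fun A => hG.1 _, fun A B => ?_⟩
    have e1 : dec (A ⊓ B) = dec A ⊓ dec B := by
      refine Prod.ext ?_ ?_
      · funext i
        simp [hdec, Bool.decide_and]
      · funext i
        simp [hdec, Bool.decide_and]
    have e2 : dec (A ⊔ B) = dec A ⊔ dec B := by
      refine Prod.ext ?_ ?_
      · funext i
        simp [hdec, Bool.decide_or]
      · funext i
        simp [hdec, Bool.decide_or]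
    show G (dec A) * G (dec B) ≤ G (dec (A ⊓ B)) * G (dec (A ⊔ B))
    rw [e1, e2]
    exact hG.2 _ _
  set s : Fin L → Finset (ι ⊕ κ) := fun l =>
    univ.filter fun x => Sum.elim (p l) (r l) x = true with hs
  have h := uncross hH s
  have h1 : ∀ l, dec (s l) = (p l, r l) := by
    intro l
    refine Prod.ext ?_ ?_
    · funext i
      simp [hdec, hs]
    · funext i
      simp [hdec, hs]
  have h2 : ∀ j : ℕ, dec (ost s j) = (ostB p j, ostB r j) := by
    intro j
    have k1 : ∀ i, (univ.filter fun l => Sum.inl i ∈ s l) =
        (univ.filter fun l => p l i = true) := by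
      intro i
      ext l
      simp [hs]
    have k2 : ∀ i, (univ.filter fun l => Sum.inr i ∈ s l) =
        (univ.filter fun l => r l i = true) := by
      intro i
      ext l
      simp [hs]
    refine Prod.ext ?_ ?_
    · funext i
      show decide (Sum.inl i ∈ ost s j) = decide (j < (univ.filter fun l => p l i = true).card)
      rw [decide_eq_decide, ← k1 i]
      simp [ost]
    · funext i
      show decide (Sum.inr i ∈ ost s j) = decide (j < (univ.filter fun l => r l i = true).card)
      rw [decide_eq_decide, ← k2 i]
      simp [ost]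
  simpa only [h1, h2] using h

end Vale.Agent.P050.T
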